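import Vale.Agent.P298.H39.RelDefs

/-!
# P298, block S1-GEO, row R5 (BDD), local calculus

`Φ` holomorphic map of charts over the parameter, `g` coefficient of a relative holomorphic
`(2,0)`-form below, `f` holomorphic above, `v`, `ν` smooth lifts above and below.
-/

open scoped ContDiff Topology
open Vale.Agent.P272.K Vale.Agent.P298.H39 Filter

noncomputable section

namespace Vale.Agent.P298.H217.Bdd

/-- the complex determinant as a real-bilinear form on `ℂ²` -/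
def detB : BF :=
  LinearMap.toContinuousLinearMap
    { toFun := fun u => LinearMap.toContinuousLinearMap
        { toFun := fun x : Cm 2 => u 0 * x 1 - u 1 * x 0
          map_add' := fun x y => by simp; ring
          map_smul' := fun c x => by simp; ring }
      map_add' := fun u v => by ext x; simp; ring
      map_smul' := fun c u => by ext x; simp; ring }

@[simp] lemma detB_apply (u x : Cm 2) : detB u x = u 0 * x 1 - u 1 * x 0 := rfl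

/-- multiplication by `i` on `ℂ²` -/
def mI : Cm 2 →L[ℝ] Cm 2 := (Complex.I • ContinuousLinearMap.id ℂ (Cm 2)).restrictScalars ℝ

@[simp] lemma mI_apply (u : Cm 2) : mI u = Complex.I • u := by
  simp [mI]

/-- antilinear part of a real linear map of `ℂ²` -/
def anti (B : Cm 2 →L[ℝ] Cm 2) : Cm 2 →L[ℝ] Cm 2 := (1 / 2 : ℝ) • (B + mI.comp (B.comp mI))

/-- complex linear part of a real linear map of `ℂ²` -/
def clin (B : Cm 2 →L[ℝ] Cm 2) : Cm 2 →L[ℝ] Cm 2 := (1 / 2 : ℝ) • (B - mI.comp (B.comp mI))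

lemma clin_add_anti (B : Cm 2 →L[ℝ] Cm 2) : clin B + anti B = B := by
  unfold clin anti
  ext u i
  simp
  ring

lemma anti_I (B : Cm 2 →L[ℝ] Cm 2) (u : Cm 2) : anti B (Complex.I • u) = -Complex.I • anti B u := by
  unfold anti
  ext i
  simp only [_root_.smul_apply, _root_.add_apply, ContinuousLinearMap.comp_apply, mI_apply,
    Pi.smul_apply, Pi.add_apply, smul_smul, Complex.I_mul_I, neg_smul, one_smul, map_neg,
    Pi.neg_apply, smul_eq_mul, Complex.real_smul]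
  linear_combination (((1 / 2 : ℝ) : ℂ) * B (Complex.I • u) i) * Complex.I_sq

lemma clin_I (B : Cm 2 →L[ℝ] Cm 2) (u : Cm 2) : clin B (Complex.I • u) = Complex.I • clin B u := by
  unfold clin
  ext i
  simp only [_root_.smul_apply, _root_.sub_apply, ContinuousLinearMap.comp_apply, mI_apply,
    Pi.smul_apply, Pi.sub_apply, smul_smul, Complex.I_mul_I, neg_smul, one_smul, map_neg,
    Pi.neg_apply, smul_eq_mul, Complex.real_smul]
  linear_combination (((1 / 2 : ℝ) : ℂ) * B (Complex.I • u) i) * Complex.I_sq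

/-- pull back of a bilinear form -/
def pbB (A : Cm 2 →L[ℝ] Cm 2) (α : BF) : BF :=
  ((ContinuousLinearMap.compL ℝ (Cm 2) (Cm 2) ℂ).flip A).comp (α.comp A)

@[simp] lemma pbB_apply (A : Cm 2 →L[ℝ] Cm 2) (α : BF) (u x : Cm 2) :
    pbB A α u x = α (A u) (A x) := rfl

/-- fibre part of the derivative of a map of charts -/
def fpart (L : Cm 2 × ℂ →L[ℝ] Cm 2 × ℂ) : Cm 2 →L[ℝ] Cm 2 :=
  (ContinuousLinearMap.fst ℝ (Cm 2) ℂ).comp (L.comp (ContinuousLinearMap.inl ℝ (Cm 2) ℂ))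

@[simp] lemma fpart_apply (L : Cm 2 × ℂ →L[ℝ] Cm 2 × ℂ) (u : Cm 2) :
    fpart L u = (L (u, 0)).1 := rfl

/-- local data at a point -/
structure Loc (Φ : Cm 2 × ℂ → Cm 2 × ℂ) (f g : Cm 2 × ℂ → ℂ) (v ν : Cm 2 × ℂ → Cm 2)
    (q : Cm 2 × ℂ) : Prop where
  hΦ : ContDiffAt ℂ ω Φ q
  hΦ2 : ∀ᶠ p in 𝓝 q, (Φ p).2 = p.2
  hf : ContDiffAt ℂ ω f q
  hg : ContDiffAt ℂ ω g (Φ q)
  hv : ContDiffAt ℝ ∞ v q
  hν : ContDiffAt ℝ ∞ ν (Φ q)

/-- the product `f * g ∘ Φ` -/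
def fg (Φ : Cm 2 × ℂ → Cm 2 × ℂ) (f g : Cm 2 × ℂ → ℂ) (q : Cm 2 × ℂ) : ℂ := f q * g (Φ q)

/-- the form upstairs -/
def etaL (Φ : Cm 2 × ℂ → Cm 2 × ℂ) (f g : Cm 2 × ℂ → ℂ) (q : Cm 2 × ℂ) : BF :=
  fg Φ f g q • pbB (fpart (fderiv ℝ Φ q)) detB

/-- the vertical difference of the two lifts -/
def xiL (Φ : Cm 2 × ℂ → Cm 2 × ℂ) (v ν : Cm 2 × ℂ → Cm 2) (q : Cm 2 × ℂ) : Cm 2 :=
  (fderiv ℝ Φ q (v q, 1)).1 - ν (Φ q)

/-- the primitive -/
def thetaL (Φ : Cm 2 × ℂ → Cm 2 × ℂ) (f g : Cm 2 × ℂ → ℂ) (v ν : Cm 2 × ℂ → Cm 2)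
    (q : Cm 2 × ℂ) : LF :=
  fg Φ f g q • (detB (xiL Φ v ν q)).comp (fpart (fderiv ℝ Φ q))

lemma fderiv_real_eq {E F : Type*} [NormedAddCommGroup E] [NormedSpace ℂ E]
    [NormedAddCommGroup F] [NormedSpace ℂ F] {φ : E → F} {q : E} (h : DifferentiableAt ℂ φ q) :
    fderiv ℝ φ q = (fderiv ℂ φ q).restrictScalars ℝ :=
  (h.hasFDerivAt.restrictScalars ℝ).fderiv

lemma fderiv_real_smul {E F : Type*} [NormedAddCommGroup E] [NormedSpace ℂ E]
    [NormedAddCommGroup F] [NormedSpace ℂ F] {φ : E → F} {q : E} (h : DifferentiableAt ℂ φ q)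
    (c : ℂ) (a : E) : fderiv ℝ φ q (c • a) = c • fderiv ℝ φ q a := by
  rw [fderiv_real_eq h]
  exact map_smul (fderiv ℂ φ q) _ _

section

variable {Φ : Cm 2 × ℂ → Cm 2 × ℂ} {f g : Cm 2 × ℂ → ℂ} {v ν : Cm 2 × ℂ → Cm 2} {q : Cm 2 × ℂ}

lemma Loc.cont_fg (h : Loc Φ f g v ν q) : ContDiffAt ℂ ω (fg Φ f g) q :=
  h.hf.mul (h.hg.comp q h.hΦ)

/-- the real derivative of `Φ` is complex differentiable in a suitable sense -/
lemma Loc.smooth_J (h : Loc Φ f g v ν q) : ContDiffAt ℝ ∞ (fderiv ℝ Φ) q :=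
  (h.hΦ.restrict_scalars ℝ).fderiv_right (m := ∞) (by simp)

lemma Loc.ev_diff (h : Loc Φ f g v ν q) : ∀ᶠ p in 𝓝 q, DifferentiableAt ℂ Φ p := by
  have h1 : ∀ᶠ p in 𝓝 q, ContDiffAt ℂ 1 Φ p := (h.hΦ.of_le (by simp)).eventually (by simp)
  exact h1.mono fun p hp => hp.differentiableAt (by simp)

/-- `S a b` -/
lemma Loc.S_symm (h : Loc Φ f g v ν q) (a b : Cm 2 × ℂ) :
    fderiv ℝ (fderiv ℝ Φ) q a b = fderiv ℝ (fderiv ℝ Φ) q b a := by
  have h1 : ContDiffAt ℝ ω Φ q := h.hΦ.restrict_scalars ℝ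
  exact (h1.isSymmSndFDerivAt (by simp)) a b

lemma Loc.S_smul_right (h : Loc Φ f g v ν q) (a b : Cm 2 × ℂ) (c : ℂ) :
    fderiv ℝ (fderiv ℝ Φ) q a (c • b) = c • fderiv ℝ (fderiv ℝ Φ) q a b := by
  have hd : DifferentiableAt ℝ (fderiv ℝ Φ) q := h.smooth_J.differentiableAt (by simp)
  have h1 : HasFDerivAt (fun p => fderiv ℝ Φ p (c • b))
      ((ContinuousLinearMap.apply ℝ (Cm 2 × ℂ) (c • b)).comp (fderiv ℝ (fderiv ℝ Φ) q)) q :=
    (ContinuousLinearMap.apply ℝ (Cm 2 × ℂ) (c • b)).hasFDerivAt.comp q hd.hasFDerivAt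
  have h2 : HasFDerivAt (fun p => c • fderiv ℝ Φ p b)
      (c • ((ContinuousLinearMap.apply ℝ (Cm 2 × ℂ) b).comp (fderiv ℝ (fderiv ℝ Φ) q))) q :=
    ((ContinuousLinearMap.apply ℝ (Cm 2 × ℂ) b).hasFDerivAt.comp q hd.hasFDerivAt).const_smul c
  have h3 : (fun p => fderiv ℝ Φ p (c • b)) =ᶠ[𝓝 q] fun p => c • fderiv ℝ Φ p b :=
    h.ev_diff.mono fun p hp => fderiv_real_smul hp c b
  have h4 := (h1.congr_of_eventuallyEq h3.symm).unique h2
  have h5 := congrArg (fun L => L a) h4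
  simpa using h5

lemma Loc.S_smul_left (h : Loc Φ f g v ν q) (a b : Cm 2 × ℂ) (c : ℂ) :
    fderiv ℝ (fderiv ℝ Φ) q (c • a) b = c • fderiv ℝ (fderiv ℝ Φ) q a b := by
  rw [h.S_symm, h.S_smul_right, h.S_symm]

lemma Loc.J_smul (h : Loc Φ f g v ν q) (a : Cm 2 × ℂ) (c : ℂ) :
    fderiv ℝ Φ q (c • a) = c • fderiv ℝ Φ q a :=
  fderiv_real_smul h.ev_diff.self_of_nhds c a

lemma Loc.J_snd (h : Loc Φ f g v ν q) (a : Cm 2 × ℂ) : (fderiv ℝ Φ q a).2 = a.2 := by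
  have hd : DifferentiableAt ℝ Φ q := by
    have := (h.hΦ.restrict_scalars ℝ).differentiableAt (by simp)
    exact this
  have h1 : HasFDerivAt (fun p => (Φ p).2)
      ((ContinuousLinearMap.snd ℝ (Cm 2) ℂ).comp (fderiv ℝ Φ q)) q :=
    (ContinuousLinearMap.snd ℝ (Cm 2) ℂ).hasFDerivAt.comp q hd.hasFDerivAt
  have h2 : HasFDerivAt (fun p : Cm 2 × ℂ => p.2) (ContinuousLinearMap.snd ℝ (Cm 2) ℂ) q :=
    (ContinuousLinearMap.snd ℝ (Cm 2) ℂ).hasFDerivAt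
  have h3 := (h1.congr_of_eventuallyEq (h.hΦ2.mono fun p hp => hp.symm)).unique h2
  exact congrArg (fun L => L a) h3

lemma fd2 {α : Cm 2 × ℂ → BF} (h : DifferentiableAt ℝ α q) (a : Cm 2 × ℂ) (u x : Cm 2) :
    fderiv ℝ (fun p => α p u x) q a = fderiv ℝ α q a u x := by
  rw [((h.hasFDerivAt.clm_apply (hasFDerivAt_const u q)).clm_apply
    (hasFDerivAt_const x q)).fderiv]
  simp

lemma fd1 {α : Cm 2 × ℂ → LF} (h : DifferentiableAt ℝ α q) (a : Cm 2 × ℂ) (x : Cm 2) :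
    fderiv ℝ (fun p => α p x) q a = fderiv ℝ α q a x := by
  rw [(h.hasFDerivAt.clm_apply (hasFDerivAt_const x q)).fderiv]
  simp

lemma contDiff_fpart : ContDiff ℝ ∞ fpart := by
  unfold fpart
  exact contDiff_const.clm_comp (contDiff_id.clm_comp contDiff_const)

lemma contDiffAt_smulB {c : Cm 2 × ℂ → ℂ} {α : Cm 2 × ℂ → BF}
    (hc : ContDiffAt ℝ ∞ c q) (hα : ContDiffAt ℝ ∞ α q) :
    ContDiffAt ℝ ∞ (fun p => c p • α p) q := by
  have h1 : (fun p => c p • α p) = fun p => ((ContinuousLinearMap.compL ℝ (Cm 2) ℂ ℂ)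
      (ContinuousLinearMap.mul ℝ ℂ (c p))).comp (α p) := by
    funext p; ext u x; rfl
  rw [h1]
  refine ContDiffAt.clm_comp ?_ hα
  exact ContDiffAt.clm_apply contDiffAt_const (ContDiffAt.clm_apply contDiffAt_const hc)

lemma contDiffAt_pbB {A : Cm 2 × ℂ → Cm 2 →L[ℝ] Cm 2} {α : Cm 2 × ℂ → BF}
    (hA : ContDiffAt ℝ ∞ A q) (hα : ContDiffAt ℝ ∞ α q) :
    ContDiffAt ℝ ∞ (fun p => pbB (A p) (α p)) q := by
  unfold pbB
  refine ContDiffAt.clm_comp ?_ (hα.clm_comp hA)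
  exact ContDiffAt.clm_apply contDiffAt_const hA

lemma Loc.smooth_fg (h : Loc Φ f g v ν q) : ContDiffAt ℝ ∞ (fg Φ f g) q :=
  (h.cont_fg.restrict_scalars ℝ).of_le (by simp)

lemma Loc.smooth_fpart (h : Loc Φ f g v ν q) :
    ContDiffAt ℝ ∞ (fun p => fpart (fderiv ℝ Φ p)) q :=
  contDiff_fpart.contDiffAt.comp q h.smooth_J

lemma Loc.smooth_eta (h : Loc Φ f g v ν q) : ContDiffAt ℝ ∞ (etaL Φ f g) q := by
  unfold etaL
  exact contDiffAt_smulB h.smooth_fg (contDiffAt_pbB h.smooth_fpart contDiffAt_const)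

lemma Loc.smooth_xi (h : Loc Φ f g v ν q) : ContDiffAt ℝ ∞ (xiL Φ v ν) q := by
  unfold xiL
  have h1 : ContDiffAt ℝ ∞ Φ q := (h.hΦ.restrict_scalars ℝ).of_le (by simp)
  refine ContDiffAt.sub ?_ (h.hν.comp q h1)
  exact contDiffAt_fst.comp q (h.smooth_J.clm_apply (h.hv.prodMk contDiffAt_const))

lemma Loc.smooth_theta (h : Loc Φ f g v ν q) : ContDiffAt ℝ ∞ (thetaL Φ f g v ν) q := by
  unfold thetaL
  refine h.smooth_fg.smul (ContDiffAt.clm_comp ?_ h.smooth_fpart)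
  exact detB.contDiff.contDiffAt.comp q h.smooth_xi

/-- derivative of `p ↦ (J p b)` -/
lemma Loc.hasFDerivAt_J (h : Loc Φ f g v ν q) (b : Cm 2 × ℂ) :
    HasFDerivAt (fun p => fderiv ℝ Φ p b)
      ((ContinuousLinearMap.apply ℝ (Cm 2 × ℂ) b).comp (fderiv ℝ (fderiv ℝ Φ) q)) q :=
  (ContinuousLinearMap.apply ℝ (Cm 2 × ℂ) b).hasFDerivAt.comp q
    (h.smooth_J.differentiableAt (by simp)).hasFDerivAt

lemma Loc.hasFDerivAt_Jf (h : Loc Φ f g v ν q) (u : Cm 2) :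
    HasFDerivAt (fun p => fpart (fderiv ℝ Φ p) u)
      ((ContinuousLinearMap.fst ℝ (Cm 2) ℂ).comp
        ((ContinuousLinearMap.apply ℝ (Cm 2 × ℂ) ((u, 0) : Cm 2 × ℂ)).comp
          (fderiv ℝ (fderiv ℝ Φ) q))) q :=
  (ContinuousLinearMap.fst ℝ (Cm 2) ℂ).hasFDerivAt.comp q (h.hasFDerivAt_J (u, 0))

lemma Loc.fderiv_eta (h : Loc Φ f g v ν q) (a : Cm 2 × ℂ) (u x : Cm 2) :
    fderiv ℝ (etaL Φ f g) q a u x =
      fderiv ℝ (fg Φ f g) q a * detB (fderiv ℝ Φ q (u, 0)).1 (fderiv ℝ Φ q (x, 0)).1 +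
      fg Φ f g q * (detB (fderiv ℝ (fderiv ℝ Φ) q a (u, 0)).1 (fderiv ℝ Φ q (x, 0)).1 +
        detB (fderiv ℝ Φ q (u, 0)).1 (fderiv ℝ (fderiv ℝ Φ) q a (x, 0)).1) := by
  rw [← fd2 (h.smooth_eta.differentiableAt (by simp))]
  have h1 := (h.smooth_fg.differentiableAt (by simp)).hasFDerivAt
  have h2 := detB.hasFDerivAt_of_bilinear (h.hasFDerivAt_Jf u) (h.hasFDerivAt_Jf x)
  have h3 := h1.mul h2
  have h4 : (fun p => etaL Φ f g p u x) = fun p => fg Φ f g p *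
      detB (fpart (fderiv ℝ Φ p) u) (fpart (fderiv ℝ Φ p) x) := by
    funext p; rfl
  rw [h4]
  have h5 := h3.fderiv
  have h6 := congrArg (fun L => L a) h5
  refine Eq.trans h6 ?_
  simp only [_root_.add_apply, _root_.smul_apply, ContinuousLinearMap.precompR_apply,
    ContinuousLinearMap.precompL_apply, ContinuousLinearMap.comp_apply,
    ContinuousLinearMap.compL_apply,
    ContinuousLinearMap.apply_apply, ContinuousLinearMap.coe_fst', smul_eq_mul, fpart_apply]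
  ring

lemma Loc.fderiv_xi (h : Loc Φ f g v ν q) (a : Cm 2 × ℂ) :
    fderiv ℝ (xiL Φ v ν) q a = (fderiv ℝ (fderiv ℝ Φ) q a (v q, 1)).1 +
      (fderiv ℝ Φ q (fderiv ℝ v q a, 0)).1 - fderiv ℝ ν (Φ q) (fderiv ℝ Φ q a) := by
  have h0 := (h.smooth_J.differentiableAt (by simp)).hasFDerivAt
  have h1 := (h.hv.differentiableAt (by simp)).hasFDerivAt
  have h2 : HasFDerivAt (fun p => (v p, (1 : ℂ))) ((fderiv ℝ v q).prod 0) q :=
    h1.prodMk (hasFDerivAt_const _ _)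
  have h3 := h0.clm_apply h2
  have h4 := (ContinuousLinearMap.fst ℝ (Cm 2) ℂ).hasFDerivAt.comp q h3
  have hΦd : DifferentiableAt ℝ Φ q := (h.hΦ.restrict_scalars ℝ).differentiableAt (by simp)
  have h5 : HasFDerivAt (fun p => ν (Φ p)) ((fderiv ℝ ν (Φ q)).comp (fderiv ℝ Φ q)) q :=
    (h.hν.differentiableAt (by simp)).hasFDerivAt.comp q hΦd.hasFDerivAt
  have h6 := h4.sub h5
  have h7 : HasFDerivAt (xiL Φ v ν) _ q := h6
  rw [h7.fderiv]
  simp only [_root_.add_apply, _root_.sub_apply, ContinuousLinearMap.comp_apply,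
    ContinuousLinearMap.coe_fst', ContinuousLinearMap.flip_apply, ContinuousLinearMap.prod_apply,
    _root_.zero_apply, Prod.fst_add]
  ring

lemma Loc.fderiv_theta (h : Loc Φ f g v ν q) (a : Cm 2 × ℂ) (x : Cm 2) :
    fderiv ℝ (thetaL Φ f g v ν) q a x =
      fderiv ℝ (fg Φ f g) q a * detB (xiL Φ v ν q) (fderiv ℝ Φ q (x, 0)).1 +
      fg Φ f g q * (detB (fderiv ℝ (xiL Φ v ν) q a) (fderiv ℝ Φ q (x, 0)).1 +
        detB (xiL Φ v ν q) (fderiv ℝ (fderiv ℝ Φ) q a (x, 0)).1) := by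
  rw [← fd1 (h.smooth_theta.differentiableAt (by simp))]
  have h1 := (h.smooth_fg.differentiableAt (by simp)).hasFDerivAt
  have h2 := detB.hasFDerivAt_of_bilinear
    (h.smooth_xi.differentiableAt (by simp)).hasFDerivAt (h.hasFDerivAt_Jf x)
  have h3 := h1.mul h2
  have h4 : (fun p => thetaL Φ f g v ν p x) = fun p => fg Φ f g p *
      detB (xiL Φ v ν p) (fpart (fderiv ℝ Φ p) x) := by
    funext p; rfl
  rw [h4]
  have h6 := congrArg (fun L => L a) h3.fderiv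
  refine Eq.trans h6 ?_
  simp only [_root_.add_apply, _root_.smul_apply, ContinuousLinearMap.precompR_apply,
    ContinuousLinearMap.precompL_apply, ContinuousLinearMap.comp_apply,
    ContinuousLinearMap.compL_apply,
    ContinuousLinearMap.apply_apply, ContinuousLinearMap.coe_fst', smul_eq_mul, fpart_apply]
  ring

/-- `∇ = (L_1 - i L_i) / 2` evaluated on two vectors -/
def DD (v : Cm 2 × ℂ → Cm 2) (α : Cm 2 × ℂ → BF) (q : Cm 2 × ℂ) (u x : Cm 2) : ℂ :=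
  (lie v 1 α q u x - Complex.I * lie v Complex.I α q u x) / 2

lemma Loc.fg_smul (h : Loc Φ f g v ν q) (c : ℂ) (a : Cm 2 × ℂ) :
    fderiv ℝ (fg Φ f g) q (c • a) = c * fderiv ℝ (fg Φ f g) q a :=
  fderiv_real_smul (h.cont_fg.differentiableAt (by simp)) c a

lemma detB_smul_left (c : ℂ) (u x : Cm 2) : detB (c • u) x = c * detB u x := by
  simp; ring

lemma detB_smul_right (c : ℂ) (u x : Cm 2) : detB u (c • x) = c * detB u x := by
  simp; ring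

lemma detB_swap (u x : Cm 2) : detB u x = -detB x u := by
  simp; ring

lemma Loc.Jf_smul (h : Loc Φ f g v ν q) (c : ℂ) (u : Cm 2) :
    (fderiv ℝ Φ q (c • u, 0)).1 = c • (fderiv ℝ Φ q (u, 0)).1 := by
  have : ((c • u, 0) : Cm 2 × ℂ) = c • ((u, 0) : Cm 2 × ℂ) := by simp
  rw [this, h.J_smul, Prod.smul_fst]

lemma etaL_apply (p : Cm 2 × ℂ) (u x : Cm 2) : etaL Φ f g p u x =
    fg Φ f g p * detB (fderiv ℝ Φ p (u, 0)).1 (fderiv ℝ Φ p (x, 0)).1 := rfl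

lemma thetaL_apply (p : Cm 2 × ℂ) (x : Cm 2) : thetaL Φ f g v ν p x =
    fg Φ f g p * detB (xiL Φ v ν p) (fderiv ℝ Φ p (x, 0)).1 := rfl

lemma Loc.lie_eta (h : Loc Φ f g v ν q) (s : ℂ) (u x : Cm 2) :
    lie v s (etaL Φ f g) q u x = s *
      (fderiv ℝ (fg Φ f g) q (v q, 1) *
          detB (fderiv ℝ Φ q (u, 0)).1 (fderiv ℝ Φ q (x, 0)).1 +
        fg Φ f g q *
          (detB ((fderiv ℝ (fderiv ℝ Φ) q (v q, 1) (u, 0)).1 +
              (fderiv ℝ Φ q (fderiv ℝ v q (u, 0), 0)).1) (fderiv ℝ Φ q (x, 0)).1 +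
            detB (fderiv ℝ Φ q (u, 0)).1 ((fderiv ℝ (fderiv ℝ Φ) q (v q, 1) (x, 0)).1 +
              (fderiv ℝ Φ q (fderiv ℝ v q (x, 0), 0)).1))) := by
  unfold lie
  have h1 : ((s • v q, s) : Cm 2 × ℂ) = s • ((v q, 1) : Cm 2 × ℂ) := by simp
  rw [h.fderiv_eta, h1, h.fg_smul, h.S_smul_left, h.S_smul_left, Prod.smul_fst, Prod.smul_fst,
    detB_smul_left, detB_smul_right, etaL_apply, etaL_apply, h.Jf_smul, h.Jf_smul,
    detB_smul_left, detB_smul_right, map_add, _root_.add_apply, map_add]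
  ring

lemma Loc.DD_eta (h : Loc Φ f g v ν q) (u x : Cm 2) :
    DD v (etaL Φ f g) q u x =
      fderiv ℝ (fg Φ f g) q (v q, 1) *
          detB (fderiv ℝ Φ q (u, 0)).1 (fderiv ℝ Φ q (x, 0)).1 +
        fg Φ f g q *
          (detB ((fderiv ℝ (fderiv ℝ Φ) q (v q, 1) (u, 0)).1 +
              (fderiv ℝ Φ q (fderiv ℝ v q (u, 0), 0)).1) (fderiv ℝ Φ q (x, 0)).1 +
            detB (fderiv ℝ Φ q (u, 0)).1 ((fderiv ℝ (fderiv ℝ Φ) q (v q, 1) (x, 0)).1 +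
              (fderiv ℝ Φ q (fderiv ℝ v q (x, 0), 0)).1)) := by
  unfold DD
  rw [h.lie_eta, h.lie_eta]
  generalize (fderiv ℝ (fg Φ f g) q (v q, 1) *
          detB (fderiv ℝ Φ q (u, 0)).1 (fderiv ℝ Φ q (x, 0)).1 +
        fg Φ f g q *
          (detB ((fderiv ℝ (fderiv ℝ Φ) q (v q, 1) (u, 0)).1 +
              (fderiv ℝ Φ q (fderiv ℝ v q (u, 0), 0)).1) (fderiv ℝ Φ q (x, 0)).1 +
            detB (fderiv ℝ Φ q (u, 0)).1 ((fderiv ℝ (fderiv ℝ Φ) q (v q, 1) (x, 0)).1 +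
              (fderiv ℝ Φ q (fderiv ℝ v q (x, 0), 0)).1))) = X
  linear_combination (-X / 2) * Complex.I_sq

lemma Loc.J_vert (h : Loc Φ f g v ν q) (u : Cm 2) :
    fderiv ℝ Φ q (u, 0) = ((fderiv ℝ Φ q (u, 0)).1, 0) :=
  Prod.ext rfl (h.J_snd (u, 0))

lemma Loc.d1_theta (h : Loc Φ f g v ν q) (u x : Cm 2) :
    d1 (thetaL Φ f g v ν) q u x =
      fderiv ℝ (fg Φ f g) q (u, 0) * detB (xiL Φ v ν q) (fderiv ℝ Φ q (x, 0)).1 -
      fderiv ℝ (fg Φ f g) q (x, 0) * detB (xiL Φ v ν q) (fderiv ℝ Φ q (u, 0)).1 +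
      fg Φ f g q *
          (detB ((fderiv ℝ (fderiv ℝ Φ) q (v q, 1) (u, 0)).1 +
              (fderiv ℝ Φ q (fderiv ℝ v q (u, 0), 0)).1) (fderiv ℝ Φ q (x, 0)).1 +
            detB (fderiv ℝ Φ q (u, 0)).1 ((fderiv ℝ (fderiv ℝ Φ) q (v q, 1) (x, 0)).1 +
              (fderiv ℝ Φ q (fderiv ℝ v q (x, 0), 0)).1)) -
      fg Φ f g q * (detB (dfv ν (Φ q) (fderiv ℝ Φ q (u, 0)).1) (fderiv ℝ Φ q (x, 0)).1 +
        detB (fderiv ℝ Φ q (u, 0)).1 (dfv ν (Φ q) (fderiv ℝ Φ q (x, 0)).1)) := by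
  unfold d1
  have hd : ∀ w : Cm 2, fderiv ℝ ν (Φ q) (fderiv ℝ Φ q (w, 0)) =
      dfv ν (Φ q) (fderiv ℝ Φ q (w, 0)).1 := fun w => by
    rw [dfv_apply, ← h.J_vert]
  rw [h.fderiv_theta, h.fderiv_theta, h.fderiv_xi, h.fderiv_xi, hd, hd,
    h.S_symm (u, 0) (x, 0), h.S_symm (u, 0) (v q, 1), h.S_symm (x, 0) (v q, 1)]
  simp only [map_add, map_sub, _root_.add_apply, _root_.sub_apply]
  rw [detB_swap (fderiv ℝ (fderiv ℝ Φ) q (v q, 1) (x, 0)).1,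
    detB_swap (fderiv ℝ Φ q (fderiv ℝ v q (x, 0), 0)).1,
    detB_swap (dfv ν (Φ q) (fderiv ℝ Φ q (x, 0)).1)]
  ring

/-- FIRST IDENTITY: `∇η - dθ` is complex bilinear up to the derivative of the lift below. -/
lemma Loc.kappa (h : Loc Φ f g v ν q) (u x : Cm 2) :
    DD v (etaL Φ f g) q u x - d1 (thetaL Φ f g v ν) q u x =
      fderiv ℝ (fg Φ f g) q (v q, 1) *
          detB (fderiv ℝ Φ q (u, 0)).1 (fderiv ℝ Φ q (x, 0)).1 -
      fderiv ℝ (fg Φ f g) q (u, 0) * detB (xiL Φ v ν q) (fderiv ℝ Φ q (x, 0)).1 +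
      fderiv ℝ (fg Φ f g) q (x, 0) * detB (xiL Φ v ν q) (fderiv ℝ Φ q (u, 0)).1 +
      fg Φ f g q * (detB (dfv ν (Φ q) (fderiv ℝ Φ q (u, 0)).1) (fderiv ℝ Φ q (x, 0)).1 +
        detB (fderiv ℝ Φ q (u, 0)).1 (dfv ν (Φ q) (fderiv ℝ Φ q (x, 0)).1)) := by
  rw [h.DD_eta, h.d1_theta]
  ring

end

end Vale.Agent.P298.H217.Bdd
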