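import Vale.Agent.P298.H217.Bdd1

/-!
# P298, block S1-GEO, row R5 (BDD), local calculus, second derivative
-/

open scoped ContDiff Topology
open Vale.Agent.P272.K Vale.Agent.P298.H39 Filter

noncomputable section

namespace Vale.Agent.P298.H217.Bdd

/-- four times the `(0,2)`-coefficient -/
def c02 (T : Cm 2 → Cm 2 → ℂ) : ℂ :=
  T (bs 0) (bs 2) + Complex.I * T (bs 0) (bs 3) + Complex.I * T (bs 1) (bs 2) - T (bs 1) (bs 3)

lemma bs1_eq : bs 1 = Complex.I • bs 0 := by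
  ext i; fin_cases i <;> simp [bs]

lemma bs3_eq : bs 3 = Complex.I • bs 2 := by
  ext i; fin_cases i <;> simp [bs]

lemma c02_congr {T T' : Cm 2 → Cm 2 → ℂ} (h : ∀ u x, T u x = T' u x) : c02 T = c02 T' := by
  unfold c02; simp only [h]

lemma c02_add (T T' : Cm 2 → Cm 2 → ℂ) : c02 (fun u x => T u x + T' u x) = c02 T + c02 T' := by
  unfold c02; ring

lemma c02_sub (T T' : Cm 2 → Cm 2 → ℂ) : c02 (fun u x => T u x - T' u x) = c02 T - c02 T' := by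
  unfold c02; ring

lemma c02_mul (c : ℂ) (T : Cm 2 → Cm 2 → ℂ) : c02 (fun u x => c * T u x) = c * c02 T := by
  unfold c02; ring

lemma c02_lin_left {T : Cm 2 → Cm 2 → ℂ} (h : ∀ u x, T (Complex.I • u) x = Complex.I * T u x) :
    c02 T = 0 := by
  unfold c02
  rw [bs1_eq, h, h]
  linear_combination (T (bs 0) (bs 2)) * Complex.I_sq

lemma c02_lin_right {T : Cm 2 → Cm 2 → ℂ} (h : ∀ u x, T u (Complex.I • x) = Complex.I * T u x) :
    c02 T = 0 := by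
  unfold c02
  rw [bs3_eq, h, h]
  linear_combination (T (bs 0) (bs 2)) * Complex.I_sq

/-- the pairing with the complex determinant is the `(0,2)`-coefficient -/
lemma prg_detB (α : BF) : prg α detB = c02 (fun u x => α u x) := by
  unfold prg c02
  have h01 : detB (bs 0) (bs 1) = 0 := by simp [bs]
  have h23 : detB (bs 2) (bs 3) = 0 := by simp [bs]
  have h02 : detB (bs 0) (bs 2) = 1 := by simp [bs]
  have h03 : detB (bs 0) (bs 3) = Complex.I := by simp [bs]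
  have h12 : detB (bs 1) (bs 2) = Complex.I := by simp [bs]
  have h13 : detB (bs 1) (bs 3) = -1 := by simp [bs]
  rw [h01, h23, h02, h03, h12, h13]
  ring

lemma c02_ty11 {α : BF} (h : Ty11 α) : c02 (fun u x => α u x) = 0 := by
  unfold c02
  have h1 : α (bs 1) (bs 3) = α (bs 0) (bs 2) := by rw [bs1_eq, bs3_eq]; exact h _ _
  have h2 : α (bs 1) (bs 2) = -α (bs 0) (bs 3) := by
    have := h (bs 0) (bs 3)
    rw [← bs1_eq, bs3_eq, smul_smul, Complex.I_mul_I, neg_smul, one_smul, map_neg] at this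
    rw [bs3_eq, ← this]; simp
  simp only [h1, h2]; ring

lemma c02_ty20 {α : BF} (h : Ty20 α) : c02 (fun u x => α u x) = 0 :=
  c02_lin_left fun u x => (h u x).1

section

variable {Φ : Cm 2 × ℂ → Cm 2 × ℂ} {f g : Cm 2 × ℂ → ℂ} {v ν : Cm 2 × ℂ → Cm 2} {q : Cm 2 × ℂ}

/-- antilinear part of the fibre derivative of the lift below -/
def BL (ν : Cm 2 × ℂ → Cm 2) (p : Cm 2 × ℂ) : Cm 2 →L[ℝ] Cm 2 := anti (dfv ν p)

/-- the `(1,1)`-form below -/
def gamL (g : Cm 2 × ℂ → ℂ) (ν : Cm 2 × ℂ → Cm 2) (p : Cm 2 × ℂ) : BF :=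
  g p • act (BL ν p) detB

/-- the `(0,2)`-form below -/
def betL (g : Cm 2 × ℂ → ℂ) (ν : Cm 2 × ℂ → Cm 2) (p : Cm 2 × ℂ) : BF :=
  (2 * g p) • pbB (BL ν p) detB

lemma gamL_apply (p : Cm 2 × ℂ) (u x : Cm 2) :
    gamL g ν p u x = g p * (detB (BL ν p u) x + detB u (BL ν p x)) := rfl

lemma betL_apply (p : Cm 2 × ℂ) (u x : Cm 2) :
    betL g ν p u x = 2 * g p * detB (BL ν p u) (BL ν p x) := rfl

/-- the second primitive -/
def thetaP (Φ : Cm 2 × ℂ → Cm 2 × ℂ) (f g : Cm 2 × ℂ → ℂ) (v ν : Cm 2 × ℂ → Cm 2)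
    (q : Cm 2 × ℂ) : LF :=
  fg Φ f g q • (detB (xiL Φ v ν q)).comp ((BL ν (Φ q)).comp (fpart (fderiv ℝ Φ q)))

lemma thetaP_apply (p : Cm 2 × ℂ) (x : Cm 2) : thetaP Φ f g v ν p x =
    fg Φ f g p * detB (xiL Φ v ν p) (BL ν (Φ p) (fderiv ℝ Φ p (x, 0)).1) := rfl

lemma contDiff_anti : ContDiff ℝ ∞ anti := by
  unfold anti
  have h1 : ContDiff ℝ ∞ (fun B : Cm 2 →L[ℝ] Cm 2 => B) := contDiff_id
  have h2 : ContDiff ℝ ∞ (fun B : Cm 2 →L[ℝ] Cm 2 => B + mI.comp (B.comp mI)) :=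
    h1.add (contDiff_const.clm_comp (h1.clm_comp contDiff_const))
  exact h2.const_smul (1 / 2 : ℝ)

lemma contDiffAt_dfv {p : Cm 2 × ℂ} (h : ContDiffAt ℝ ∞ ν p) : ContDiffAt ℝ ∞ (dfv ν) p := by
  unfold dfv
  exact (h.fderiv_right (m := ∞) (by simp)).clm_comp contDiffAt_const

lemma contDiffAt_BL {p : Cm 2 × ℂ} (h : ContDiffAt ℝ ∞ ν p) : ContDiffAt ℝ ∞ (BL ν) p :=
  contDiff_anti.contDiffAt.comp p (contDiffAt_dfv h)

lemma Loc.smooth_Φ (h : Loc Φ f g v ν q) : ContDiffAt ℝ ∞ Φ q :=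
  (h.hΦ.restrict_scalars ℝ).of_le (by simp)

lemma Loc.smooth_BLΦ (h : Loc Φ f g v ν q) : ContDiffAt ℝ ∞ (fun p => BL ν (Φ p)) q :=
  (contDiffAt_BL h.hν).comp q h.smooth_Φ

lemma Loc.smooth_thetaP (h : Loc Φ f g v ν q) : ContDiffAt ℝ ∞ (thetaP Φ f g v ν) q := by
  unfold thetaP
  refine h.smooth_fg.smul (ContDiffAt.clm_comp ?_ (h.smooth_BLΦ.clm_comp h.smooth_fpart))
  exact detB.contDiff.contDiffAt.comp q h.smooth_xi

/-- the derivative of `anti (dfv ν)` -/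
lemma fderiv_BL {p : Cm 2 × ℂ} (h : ContDiffAt ℝ ∞ ν p) (a : Cm 2 × ℂ) (b : Cm 2) :
    fderiv ℝ (BL ν) p a b = (1 / 2 : ℝ) • (fderiv ℝ (fderiv ℝ ν) p a (b, 0) +
      Complex.I • fderiv ℝ (fderiv ℝ ν) p a (Complex.I • b, 0)) := by
  have h0 : DifferentiableAt ℝ (fderiv ℝ ν) p :=
    (h.fderiv_right (m := ∞) (by simp)).differentiableAt (by simp)
  have h1 : HasFDerivAt (dfv ν) _ p := h0.hasFDerivAt.clm_comp
    (hasFDerivAt_const (ContinuousLinearMap.inl ℝ (Cm 2) ℂ) p)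
  have hA : DifferentiableAt ℝ (dfv ν) p := h1.differentiableAt
  have h2 : HasFDerivAt (fun p => BL ν p b)
      ((1 / 2 : ℝ) • (((ContinuousLinearMap.apply ℝ (Cm 2) b).comp (fderiv ℝ (dfv ν) p)) +
        mI.comp ((ContinuousLinearMap.apply ℝ (Cm 2) (mI b)).comp (fderiv ℝ (dfv ν) p)))) p := by
    have h3 : HasFDerivAt (fun p => dfv ν p b)
        ((ContinuousLinearMap.apply ℝ (Cm 2) b).comp (fderiv ℝ (dfv ν) p)) p :=
      (ContinuousLinearMap.apply ℝ (Cm 2) b).hasFDerivAt.comp p hA.hasFDerivAt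
    have h4 : HasFDerivAt (fun p => mI (dfv ν p (mI b)))
        (mI.comp ((ContinuousLinearMap.apply ℝ (Cm 2) (mI b)).comp (fderiv ℝ (dfv ν) p))) p :=
      mI.hasFDerivAt.comp p
        ((ContinuousLinearMap.apply ℝ (Cm 2) (mI b)).hasFDerivAt.comp p hA.hasFDerivAt)
    exact (h3.add h4).const_smul (1 / 2 : ℝ)
  have h5 : DifferentiableAt ℝ (BL ν) p := (contDiffAt_BL h).differentiableAt (by simp)
  have h6 : HasFDerivAt (fun p => BL ν p b)
      ((ContinuousLinearMap.apply ℝ (Cm 2) b).comp (fderiv ℝ (BL ν) p)) p :=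
    (ContinuousLinearMap.apply ℝ (Cm 2) b).hasFDerivAt.comp p h5.hasFDerivAt
  have h7 := congrArg (fun L => L a) (h6.unique h2)
  have h8 : ∀ w : Cm 2, fderiv ℝ (dfv ν) p a w = fderiv ℝ (fderiv ℝ ν) p a (w, 0) := by
    intro w
    have h9 : HasFDerivAt (fun p => dfv ν p w)
        ((ContinuousLinearMap.apply ℝ (Cm 2) w).comp (fderiv ℝ (dfv ν) p)) p :=
      (ContinuousLinearMap.apply ℝ (Cm 2) w).hasFDerivAt.comp p hA.hasFDerivAt
    have h10 : HasFDerivAt (fun p => fderiv ℝ ν p (w, 0))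
        ((ContinuousLinearMap.apply ℝ (Cm 2) ((w, 0) : Cm 2 × ℂ)).comp
          (fderiv ℝ (fderiv ℝ ν) p)) p :=
      (ContinuousLinearMap.apply ℝ (Cm 2) ((w, 0) : Cm 2 × ℂ)).hasFDerivAt.comp p h0.hasFDerivAt
    exact congrArg (fun L => L a) (h9.unique h10)
  refine Eq.trans h7 ?_
  simp only [_root_.smul_apply, _root_.add_apply, ContinuousLinearMap.comp_apply,
    ContinuousLinearMap.apply_apply, mI_apply, h8]

lemma BL_I (p : Cm 2 × ℂ) (u : Cm 2) : BL ν p (Complex.I • u) = -Complex.I • BL ν p u :=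
  anti_I _ _

lemma Loc.fderiv_thetaP (h : Loc Φ f g v ν q) (a : Cm 2 × ℂ) (x : Cm 2) :
    fderiv ℝ (thetaP Φ f g v ν) q a x =
      fderiv ℝ (fg Φ f g) q a * detB (xiL Φ v ν q) (BL ν (Φ q) (fderiv ℝ Φ q (x, 0)).1) +
      fg Φ f g q * (detB (fderiv ℝ (xiL Φ v ν) q a) (BL ν (Φ q) (fderiv ℝ Φ q (x, 0)).1) +
        detB (xiL Φ v ν q) (fderiv ℝ (BL ν) (Φ q) (fderiv ℝ Φ q a) (fderiv ℝ Φ q (x, 0)).1 +
          BL ν (Φ q) (fderiv ℝ (fderiv ℝ Φ) q a (x, 0)).1)) := by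
  rw [← fd1 (h.smooth_thetaP.differentiableAt (by simp))]
  have h1 := (h.smooth_fg.differentiableAt (by simp)).hasFDerivAt
  have hB0 : HasFDerivAt (fun p => BL ν (Φ p)) ((fderiv ℝ (BL ν) (Φ q)).comp (fderiv ℝ Φ q)) q :=
    ((contDiffAt_BL h.hν).differentiableAt (by simp)).hasFDerivAt.comp q
      (h.smooth_Φ.differentiableAt (by simp)).hasFDerivAt
  have hB := hB0.clm_apply (h.hasFDerivAt_Jf x)
  have h2 := detB.hasFDerivAt_of_bilinear
    (h.smooth_xi.differentiableAt (by simp)).hasFDerivAt hB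
  have h3 := h1.mul h2
  have h4 : (fun p => thetaP Φ f g v ν p x) = fun p => fg Φ f g p *
      detB (xiL Φ v ν p) (BL ν (Φ p) (fpart (fderiv ℝ Φ p) x)) := by
    funext p; rfl
  rw [h4]
  have h6 := congrArg (fun L => L a) h3.fderiv
  refine Eq.trans h6 ?_
  simp only [_root_.add_apply, _root_.smul_apply, ContinuousLinearMap.precompR_apply,
    ContinuousLinearMap.precompL_apply, ContinuousLinearMap.comp_apply,
    ContinuousLinearMap.compL_apply, ContinuousLinearMap.flip_apply,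
    ContinuousLinearMap.apply_apply, ContinuousLinearMap.coe_fst', smul_eq_mul, fpart_apply,
    map_add]
  ring

lemma Loc.d1_thetaP (h : Loc Φ f g v ν q) (u x : Cm 2) :
    d1 (thetaP Φ f g v ν) q u x =
      (fderiv ℝ (fg Φ f g) q (u, 0) *
          detB (xiL Φ v ν q) (BL ν (Φ q) (fderiv ℝ Φ q (x, 0)).1) +
        fg Φ f g q * detB ((fderiv ℝ (fderiv ℝ Φ) q (v q, 1) (u, 0)).1 -
          clin (dfv ν (Φ q)) (fderiv ℝ Φ q (u, 0)).1) (BL ν (Φ q) (fderiv ℝ Φ q (x, 0)).1)) -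
      (fderiv ℝ (fg Φ f g) q (x, 0) *
          detB (xiL Φ v ν q) (BL ν (Φ q) (fderiv ℝ Φ q (u, 0)).1) +
        fg Φ f g q * detB ((fderiv ℝ (fderiv ℝ Φ) q (v q, 1) (x, 0)).1 -
          clin (dfv ν (Φ q)) (fderiv ℝ Φ q (x, 0)).1) (BL ν (Φ q) (fderiv ℝ Φ q (u, 0)).1)) +
      fg Φ f g q *
          (detB (fderiv ℝ Φ q (fderiv ℝ v q (u, 0), 0)).1
              (BL ν (Φ q) (fderiv ℝ Φ q (x, 0)).1) +
            detB (BL ν (Φ q) (fderiv ℝ Φ q (u, 0)).1)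
              (fderiv ℝ Φ q (fderiv ℝ v q (x, 0), 0)).1) -
      fg Φ f g q * (2 * detB (BL ν (Φ q) (fderiv ℝ Φ q (u, 0)).1)
        (BL ν (Φ q) (fderiv ℝ Φ q (x, 0)).1)) +
      fg Φ f g q * detB (xiL Φ v ν q)
        (fderiv ℝ (BL ν) (Φ q) ((fderiv ℝ Φ q (u, 0)).1, 0) (fderiv ℝ Φ q (x, 0)).1 -
          fderiv ℝ (BL ν) (Φ q) ((fderiv ℝ Φ q (x, 0)).1, 0) (fderiv ℝ Φ q (u, 0)).1) := by
  unfold d1
  have hd : ∀ w : Cm 2, fderiv ℝ ν (Φ q) (fderiv ℝ Φ q (w, 0)) =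
      clin (dfv ν (Φ q)) (fderiv ℝ Φ q (w, 0)).1 + BL ν (Φ q) (fderiv ℝ Φ q (w, 0)).1 :=
    fun w => by
      have h1 : dfv ν (Φ q) (fderiv ℝ Φ q (w, 0)).1 = fderiv ℝ ν (Φ q) (fderiv ℝ Φ q (w, 0)) := by
        rw [dfv_apply, ← h.J_vert]
      rw [← h1]
      unfold BL
      rw [← _root_.add_apply, clin_add_anti]
  rw [h.fderiv_thetaP, h.fderiv_thetaP, h.fderiv_xi, h.fderiv_xi, hd, hd,
    h.S_symm (u, 0) (x, 0), h.S_symm (u, 0) (v q, 1), h.S_symm (x, 0) (v q, 1),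
    ← h.J_vert, ← h.J_vert]
  simp only [map_add, map_sub, _root_.add_apply, _root_.sub_apply]
  rw [detB_swap (fderiv ℝ Φ q (fderiv ℝ v q (x, 0), 0)).1,
    detB_swap (BL ν (Φ q) (fderiv ℝ Φ q (x, 0)).1) (BL ν (Φ q) (fderiv ℝ Φ q (u, 0)).1)]
  ring

lemma detB_add_left (a b x : Cm 2) : detB (a + b) x = detB a x + detB b x := by
  rw [map_add]; rfl

lemma Loc.J_I (h : Loc Φ f g v ν q) (u : Cm 2) :
    (fderiv ℝ Φ q (Complex.I • u, 0)).1 = Complex.I • (fderiv ℝ Φ q (u, 0)).1 := h.Jf_smul _ _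

lemma Loc.S_I (h : Loc Φ f g v ν q) (b : Cm 2 × ℂ) (u : Cm 2) :
    (fderiv ℝ (fderiv ℝ Φ) q b (Complex.I • u, 0)).1 =
      Complex.I • (fderiv ℝ (fderiv ℝ Φ) q b (u, 0)).1 := by
  have : ((Complex.I • u, 0) : Cm 2 × ℂ) = Complex.I • ((u, 0) : Cm 2 × ℂ) := by simp
  rw [this, h.S_smul_right, Prod.smul_fst]

lemma Loc.fg_I (h : Loc Φ f g v ν q) (u : Cm 2) :
    fderiv ℝ (fg Φ f g) q (Complex.I • u, 0) = Complex.I * fderiv ℝ (fg Φ f g) q (u, 0) := by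
  have : ((Complex.I • u, 0) : Cm 2 × ℂ) = Complex.I • ((u, 0) : Cm 2 × ℂ) := by simp
  rw [this, h.fg_smul]

/-- the second derivative of the lift below drops out -/
lemma c02_second {p : Cm 2 × ℂ} (hν : ContDiffAt ℝ ∞ ν p) (ξ : Cm 2)
    (A : Cm 2 → Cm 2) (hA : ∀ u, A (Complex.I • u) = Complex.I • A u) :
    c02 (fun u x => detB ξ (fderiv ℝ (BL ν) p (A u, 0) (A x) -
      fderiv ℝ (BL ν) p (A x, 0) (A u))) = 0 := by
  have hs : ∀ a b : Cm 2 × ℂ, fderiv ℝ (fderiv ℝ ν) p a b = fderiv ℝ (fderiv ℝ ν) p b a :=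
    fun a b => (hν.isSymmSndFDerivAt (by
      rw [minSmoothness_of_isRCLikeNormedField]; exact ENat.LEInfty.out)) a b
  have hn : ∀ a b : Cm 2, fderiv ℝ (fderiv ℝ ν) p (-a, 0) (b, 0) =
      -fderiv ℝ (fderiv ℝ ν) p (a, 0) (b, 0) := fun a b => by
    have : ((-a, 0) : Cm 2 × ℂ) = -((a, 0) : Cm 2 × ℂ) := by simp
    rw [this, map_neg]; rfl
  have hn' : ∀ a b : Cm 2, fderiv ℝ (fderiv ℝ ν) p (a, 0) (-b, 0) =
      -fderiv ℝ (fderiv ℝ ν) p (a, 0) (b, 0) := fun a b => by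
    rw [hs, hn, hs]
  have hII : ∀ a : Cm 2, Complex.I • Complex.I • a = -a := fun a => by
    rw [smul_smul, Complex.I_mul_I, neg_smul, one_smul]
  unfold c02
  simp only [fderiv_BL hν, bs1_eq, bs3_eq, hA, hII, hn']
  rw [hs (A (bs 2), 0) (A (bs 0), 0), hs (A (bs 2), 0) (Complex.I • A (bs 0), 0),
    hs (Complex.I • A (bs 2), 0) (A (bs 0), 0),
    hs (Complex.I • A (bs 2), 0) (Complex.I • A (bs 0), 0)]
  generalize fderiv ℝ (fderiv ℝ ν) p (A (bs 0), 0) (A (bs 2), 0) = N1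
  generalize fderiv ℝ (fderiv ℝ ν) p (Complex.I • A (bs 0), 0) (A (bs 2), 0) = N2
  generalize fderiv ℝ (fderiv ℝ ν) p (A (bs 0), 0) (Complex.I • A (bs 2), 0) = N3
  generalize fderiv ℝ (fderiv ℝ ν) p (Complex.I • A (bs 0), 0) (Complex.I • A (bs 2), 0) = N4
  simp only [detB_apply, Pi.sub_apply, Pi.smul_apply, Pi.add_apply, Pi.neg_apply, smul_eq_mul,
    Complex.real_smul]
  ring

/-- SECOND IDENTITY, right-hand side: `(0,2)`-part of `dθ'` -/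
lemma Loc.c02_d1_thetaP (h : Loc Φ f g v ν q) :
    c02 (d1 (thetaP Φ f g v ν) q) =
      fg Φ f g q * c02 (fun u x => detB (fderiv ℝ Φ q (fderiv ℝ v q (u, 0), 0)).1
              (BL ν (Φ q) (fderiv ℝ Φ q (x, 0)).1) +
            detB (BL ν (Φ q) (fderiv ℝ Φ q (u, 0)).1)
              (fderiv ℝ Φ q (fderiv ℝ v q (x, 0), 0)).1) -
      fg Φ f g q * c02 (fun u x => 2 * detB (BL ν (Φ q) (fderiv ℝ Φ q (u, 0)).1)
        (BL ν (Φ q) (fderiv ℝ Φ q (x, 0)).1)) := by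
  rw [c02_congr h.d1_thetaP]
  rw [c02_add, c02_sub, c02_add, c02_sub]
  have h1 : c02 (fun u x => fderiv ℝ (fg Φ f g) q (u, 0) *
          detB (xiL Φ v ν q) (BL ν (Φ q) (fderiv ℝ Φ q (x, 0)).1) +
        fg Φ f g q * detB ((fderiv ℝ (fderiv ℝ Φ) q (v q, 1) (u, 0)).1 -
          clin (dfv ν (Φ q)) (fderiv ℝ Φ q (u, 0)).1)
            (BL ν (Φ q) (fderiv ℝ Φ q (x, 0)).1)) = 0 := by
    refine c02_lin_left fun u x => ?_
    rw [h.fg_I, h.S_I, h.J_I, clin_I, ← smul_sub, detB_smul_left]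
    ring
  have h2 : c02 (fun u x => fderiv ℝ (fg Φ f g) q (x, 0) *
          detB (xiL Φ v ν q) (BL ν (Φ q) (fderiv ℝ Φ q (u, 0)).1) +
        fg Φ f g q * detB ((fderiv ℝ (fderiv ℝ Φ) q (v q, 1) (x, 0)).1 -
          clin (dfv ν (Φ q)) (fderiv ℝ Φ q (x, 0)).1)
            (BL ν (Φ q) (fderiv ℝ Φ q (u, 0)).1)) = 0 := by
    refine c02_lin_right fun u x => ?_
    rw [h.fg_I, h.S_I, h.J_I, clin_I, ← smul_sub, detB_smul_left]
    ring
  have h3 := c02_second h.hν (xiL Φ v ν q) (fun u => (fderiv ℝ Φ q (u, 0)).1) (h.J_I)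
  have h4 : c02 (fun u x => fg Φ f g q * detB (xiL Φ v ν q)
        (fderiv ℝ (BL ν) (Φ q) ((fderiv ℝ Φ q (u, 0)).1, 0) (fderiv ℝ Φ q (x, 0)).1 -
          fderiv ℝ (BL ν) (Φ q) ((fderiv ℝ Φ q (x, 0)).1, 0) (fderiv ℝ Φ q (u, 0)).1)) = 0 := by
    rw [c02_mul, h3, mul_zero]
  rw [h1, h2, h4, c02_mul, c02_mul]
  ring

/-! ### Lie derivatives of forms of given type -/

lemma lie_add {α β γ : Cm 2 × ℂ → BF} (hα : DifferentiableAt ℝ α q)
    (hβ : DifferentiableAt ℝ β q) (hγ : DifferentiableAt ℝ γ q)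
    (h : ∀ᶠ p in 𝓝 q, ∀ u x, γ p u x = α p u x + β p u x) (s : ℂ) (u x : Cm 2) :
    lie v s γ q u x = lie v s α q u x + lie v s β q u x := by
  have h1 : ∀ a u x, fderiv ℝ γ q a u x = fderiv ℝ α q a u x + fderiv ℝ β q a u x := by
    intro a u x
    rw [← fd2 hα, ← fd2 hβ, ← fd2 hγ]
    have h2 : (fun p => γ p u x) =ᶠ[𝓝 q] fun p => α p u x + β p u x :=
      h.mono fun p hp => hp u x
    have hd : DifferentiableAt ℝ (fun p => α p u x) q :=
      (hα.clm_apply (differentiableAt_const u)).clm_apply (differentiableAt_const x)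
    have hd' : DifferentiableAt ℝ (fun p => β p u x) q :=
      (hβ.clm_apply (differentiableAt_const u)).clm_apply (differentiableAt_const x)
    rw [h2.fderiv_eq, fderiv_fun_add hd hd']
    rfl
  have h3 := h.self_of_nhds
  unfold lie
  rw [h1, h3, h3]
  ring

lemma lie_congr {α β : Cm 2 × ℂ → BF} (h : α =ᶠ[𝓝 q] β) (s : ℂ) (u x : Cm 2) :
    lie v s α q u x = lie v s β q u x := by
  unfold lie
  rw [h.fderiv_eq, h.self_of_nhds]

lemma c02_lie_ty20 {α : Cm 2 × ℂ → BF} (hα : DifferentiableAt ℝ α q)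
    (ht : ∀ᶠ p in 𝓝 q, Ty20 (α p)) (s : ℂ) : c02 (lie v s α q) = 0 := by
  have h1 : ∀ a : Cm 2 × ℂ, ∀ u x : Cm 2,
      fderiv ℝ α q a (Complex.I • u) x = Complex.I * fderiv ℝ α q a u x := by
    intro a u x
    rw [← fd2 hα, ← fd2 hα]
    have h2 : (fun p => α p (Complex.I • u) x) =ᶠ[𝓝 q] fun p => Complex.I * α p u x :=
      ht.mono fun p hp => (hp u x).1
    have hd : DifferentiableAt ℝ (fun p => α p u x) q :=
      (hα.clm_apply (differentiableAt_const u)).clm_apply (differentiableAt_const x)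
    rw [h2.fderiv_eq, fderiv_const_mul hd]
    rfl
  have h0 : c02 (lie v s α q) = c02 (fun u x => fderiv ℝ α q (s • v q, s) u x) +
      c02 (fun u x => α q (s • fderiv ℝ v q (u, 0)) x) +
      c02 (fun u x => α q u (s • fderiv ℝ v q (x, 0))) := by
    rw [← c02_add, ← c02_add]; rfl
  have hq := ht.self_of_nhds
  rw [h0, c02_lin_left fun u x => h1 _ u x, c02_lin_right fun u x => (hq _ x).2,
    c02_lin_left fun u x => (hq u _).1]
  ring

lemma fderiv_ty11 {α : Cm 2 × ℂ → BF} (hα : DifferentiableAt ℝ α q)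
    (ht : ∀ᶠ p in 𝓝 q, Ty11 (α p)) (a : Cm 2 × ℂ) : Ty11 (fderiv ℝ α q a) := by
  intro u x
  rw [← fd2 hα, ← fd2 hα]
  have h2 : (fun p => α p (Complex.I • u) (Complex.I • x)) =ᶠ[𝓝 q] fun p => α p u x :=
    ht.mono fun p hp => hp u x
  rw [h2.fderiv_eq]

/-- the pulled back `(1,1)`-form -/
def muL (Φ : Cm 2 × ℂ → Cm 2 × ℂ) (f g : Cm 2 × ℂ → ℂ) (ν : Cm 2 × ℂ → Cm 2)
    (p : Cm 2 × ℂ) : BF := f p • pbB (fpart (fderiv ℝ Φ p)) (gamL g ν (Φ p))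

lemma muL_apply (p : Cm 2 × ℂ) (u x : Cm 2) : muL Φ f g ν p u x = fg Φ f g p *
    (detB (BL ν (Φ p) (fderiv ℝ Φ p (u, 0)).1) (fderiv ℝ Φ p (x, 0)).1 +
      detB (fderiv ℝ Φ p (u, 0)).1 (BL ν (Φ p) (fderiv ℝ Φ p (x, 0)).1)) := by
  have h1 : muL Φ f g ν p u x = f p * (g (Φ p) *
    (detB (BL ν (Φ p) (fderiv ℝ Φ p (u, 0)).1) (fderiv ℝ Φ p (x, 0)).1 +
      detB (fderiv ℝ Φ p (u, 0)).1 (BL ν (Φ p) (fderiv ℝ Φ p (x, 0)).1))) := rfl
  rw [h1]; unfold fg; ring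

lemma contDiffAt_act {B : Cm 2 × ℂ → Cm 2 →L[ℝ] Cm 2} {α : Cm 2 × ℂ → BF}
    (hB : ContDiffAt ℝ ∞ B q) (hα : ContDiffAt ℝ ∞ α q) :
    ContDiffAt ℝ ∞ (fun p => act (B p) (α p)) q := by
  unfold act
  refine (hα.clm_comp hB).add (ContDiffAt.clm_comp ?_ hα)
  exact ContDiffAt.clm_apply contDiffAt_const hB

lemma Loc.smooth_g (h : Loc Φ f g v ν q) : ContDiffAt ℝ ∞ g (Φ q) :=
  (h.hg.restrict_scalars ℝ).of_le (by simp)

lemma Loc.smooth_f (h : Loc Φ f g v ν q) : ContDiffAt ℝ ∞ f q :=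
  (h.hf.restrict_scalars ℝ).of_le (by simp)

lemma Loc.smooth_gamL (h : Loc Φ f g v ν q) : ContDiffAt ℝ ∞ (gamL g ν) (Φ q) := by
  unfold gamL
  exact contDiffAt_smulB h.smooth_g (contDiffAt_act (contDiffAt_BL h.hν) contDiffAt_const)

lemma Loc.smooth_muL (h : Loc Φ f g v ν q) : ContDiffAt ℝ ∞ (muL Φ f g ν) q := by
  unfold muL
  refine contDiffAt_smulB h.smooth_f (contDiffAt_pbB h.smooth_fpart ?_)
  exact h.smooth_gamL.comp q h.smooth_Φ

/-- the local data persist near the point -/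
lemma Loc.ev_J_I (h : Loc Φ f g v ν q) : ∀ᶠ p in 𝓝 q, ∀ u : Cm 2,
    (fderiv ℝ Φ p (Complex.I • u, 0)).1 = Complex.I • (fderiv ℝ Φ p (u, 0)).1 := by
  filter_upwards [h.ev_diff] with p hp u
  have : ((Complex.I • u, 0) : Cm 2 × ℂ) = Complex.I • ((u, 0) : Cm 2 × ℂ) := by simp
  rw [this, fderiv_real_smul hp, Prod.smul_fst]

lemma Loc.ev_ty11 (h : Loc Φ f g v ν q) : ∀ᶠ p in 𝓝 q, Ty11 (muL Φ f g ν p) := by
  filter_upwards [h.ev_J_I] with p hp u x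
  rw [muL_apply, muL_apply, hp, hp, BL_I, BL_I]
  simp only [detB_smul_left, detB_smul_right]
  linear_combination (-(fg Φ f g p * (detB (BL ν (Φ p) (fderiv ℝ Φ p (u, 0)).1)
    (fderiv ℝ Φ p (x, 0)).1 + detB (fderiv ℝ Φ p (u, 0)).1
      (BL ν (Φ p) (fderiv ℝ Φ p (x, 0)).1)))) * Complex.I_sq

lemma Loc.c02_lie_mu (h : Loc Φ f g v ν q) (s : ℂ) :
    c02 (lie v s (muL Φ f g ν) q) = s * (fg Φ f g q * c02 (fun u x =>
      detB (fderiv ℝ Φ q (fderiv ℝ v q (u, 0), 0)).1 (BL ν (Φ q) (fderiv ℝ Φ q (x, 0)).1) +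
        detB (BL ν (Φ q) (fderiv ℝ Φ q (u, 0)).1)
          (fderiv ℝ Φ q (fderiv ℝ v q (x, 0), 0)).1)) := by
  have h0 : c02 (lie v s (muL Φ f g ν) q) =
      c02 (fun u x => fderiv ℝ (muL Φ f g ν) q (s • v q, s) u x) +
      c02 (fun u x => muL Φ f g ν q (s • fderiv ℝ v q (u, 0)) x) +
      c02 (fun u x => muL Φ f g ν q u (s • fderiv ℝ v q (x, 0))) := by
    rw [← c02_add, ← c02_add]; rfl
  have h1 : c02 (fun u x => muL Φ f g ν q (s • fderiv ℝ v q (u, 0)) x) =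
      s * (fg Φ f g q * c02 (fun u x =>
        detB (fderiv ℝ Φ q (fderiv ℝ v q (u, 0), 0)).1
          (BL ν (Φ q) (fderiv ℝ Φ q (x, 0)).1))) := by
    have h2 : c02 (fun u x => fg Φ f g q * detB (BL ν (Φ q) (fderiv ℝ Φ q
        (s • fderiv ℝ v q (u, 0), 0)).1) (fderiv ℝ Φ q (x, 0)).1) = 0 := by
      refine c02_lin_right fun u x => ?_
      rw [h.J_I, detB_smul_right]; ring
    rw [← c02_mul, ← c02_mul]
    have h4 : c02 (fun u x => muL Φ f g ν q (s • fderiv ℝ v q (u, 0)) x) =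
        c02 (fun u x => fg Φ f g q * detB (BL ν (Φ q) (fderiv ℝ Φ q
        (s • fderiv ℝ v q (u, 0), 0)).1) (fderiv ℝ Φ q (x, 0)).1 +
        s * (fg Φ f g q * detB (fderiv ℝ Φ q (fderiv ℝ v q (u, 0), 0)).1
          (BL ν (Φ q) (fderiv ℝ Φ q (x, 0)).1))) := by
      refine c02_congr fun u x => ?_
      rw [muL_apply, h.Jf_smul, detB_smul_left]
      ring
    rw [h4, c02_add, h2, zero_add]
  have h3 : c02 (fun u x => muL Φ f g ν q u (s • fderiv ℝ v q (x, 0))) =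
      s * (fg Φ f g q * c02 (fun u x =>
        detB (BL ν (Φ q) (fderiv ℝ Φ q (u, 0)).1)
          (fderiv ℝ Φ q (fderiv ℝ v q (x, 0), 0)).1)) := by
    have h2 : c02 (fun u x => fg Φ f g q * detB (fderiv ℝ Φ q (u, 0)).1
        (BL ν (Φ q) (fderiv ℝ Φ q (s • fderiv ℝ v q (x, 0), 0)).1)) = 0 := by
      refine c02_lin_left fun u x => ?_
      rw [h.J_I, detB_smul_left]; ring
    rw [← c02_mul, ← c02_mul]
    have h4 : c02 (fun u x => muL Φ f g ν q u (s • fderiv ℝ v q (x, 0))) =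
        c02 (fun u x => fg Φ f g q * detB (fderiv ℝ Φ q (u, 0)).1
        (BL ν (Φ q) (fderiv ℝ Φ q (s • fderiv ℝ v q (x, 0), 0)).1) +
        s * (fg Φ f g q * detB (BL ν (Φ q) (fderiv ℝ Φ q (u, 0)).1)
          (fderiv ℝ Φ q (fderiv ℝ v q (x, 0), 0)).1)) := by
      refine c02_congr fun u x => ?_
      rw [muL_apply, h.Jf_smul, detB_smul_right]
      ring
    rw [h4, c02_add, h2, zero_add]
  rw [h0, h1, h3, c02_ty11 (fderiv_ty11 (h.smooth_muL.differentiableAt (by simp)) h.ev_ty11 _),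
    c02_add]
  ring

/-- SECOND IDENTITY: if `κ` is `f π^*γ` up to type `(2,0)`, then the `(0,2)`-part of
`∇κ - dθ'` is `f π^*β`. -/
lemma Loc.second (h : Loc Φ f g v ν q) {κ : Cm 2 × ℂ → BF} (hκ : DifferentiableAt ℝ κ q)
    (ht : ∀ᶠ p in 𝓝 q, Ty20 (κ p - muL Φ f g ν p)) :
    c02 (DD v κ q) - c02 (d1 (thetaP Φ f g v ν) q) =
      f q * c02 (fun u x => pbB (fpart (fderiv ℝ Φ q)) (betL g ν (Φ q)) u x) := by
  have hm := h.smooth_muL.differentiableAt (by simp)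
  have h1 : ∀ s : ℂ, c02 (lie v s κ q) = c02 (lie v s (muL Φ f g ν) q) := by
    intro s
    have h2 : ∀ u x, lie v s κ q u x = lie v s (fun p => κ p - muL Φ f g ν p) q u x +
        lie v s (muL Φ f g ν) q u x := by
      intro u x
      refine lie_add (hκ.sub hm) hm hκ (Eventually.of_forall fun p u x => ?_) s u x
      simp
    have hd : DifferentiableAt ℝ (fun p => κ p - muL Φ f g ν p) q := hκ.sub hm
    have h3 : c02 (lie v s (fun p => κ p - muL Φ f g ν p) q) = 0 := c02_lie_ty20 hd ht s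
    rw [c02_congr h2, c02_add, h3, zero_add]
  have h3 : c02 (DD v κ q) = (c02 (lie v 1 κ q) - Complex.I * c02 (lie v Complex.I κ q)) / 2 := by
    unfold DD
    rw [← c02_mul, ← c02_sub, div_eq_inv_mul, ← c02_mul]
    refine c02_congr fun u x => ?_
    ring
  rw [h3, h1, h1, h.c02_lie_mu, h.c02_lie_mu, h.c02_d1_thetaP]
  have h4 : f q * c02 (fun u x => pbB (fpart (fderiv ℝ Φ q)) (betL g ν (Φ q)) u x) =
      fg Φ f g q * c02 (fun u x => 2 * detB (BL ν (Φ q) (fderiv ℝ Φ q (u, 0)).1)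
        (BL ν (Φ q) (fderiv ℝ Φ q (x, 0)).1)) := by
    rw [← c02_mul, ← c02_mul]
    refine c02_congr fun u x => ?_
    rw [pbB_apply, betL_apply, fpart_apply, fpart_apply]
    unfold fg; ring
  rw [h4]
  generalize c02 (fun u x =>
      detB (fderiv ℝ Φ q (fderiv ℝ v q (u, 0), 0)).1 (BL ν (Φ q) (fderiv ℝ Φ q (x, 0)).1) +
        detB (BL ν (Φ q) (fderiv ℝ Φ q (u, 0)).1)
          (fderiv ℝ Φ q (fderiv ℝ v q (x, 0), 0)).1) = X
  linear_combination (-(fg Φ f g q * X) / 2) * Complex.I_sq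

end

end Vale.Agent.P298.H217.Bdd
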