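import Vale.Agent.P298.H217.Bdd2
import Vale.Agent.P298.H39.Jac

/-!
# P298, block S1-GEO, row R5 (BDD), global forms

`π : Z → S` map of analytic families, `h` holomorphic section of the pull back of the relative
canonical bundle of `S`, `v`, `ν` lifts above and below.
-/

open scoped ContDiff Topology
open Vale.Agent.P272.K Vale.Agent.P298.H39 Filter

noncomputable section

namespace Vale.Agent.P298.H217.Bdd

variable {Z S : Type} [TopologicalSpace Z] [TopologicalSpace S]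

/-- a holomorphic map of analytic families over the parameter -/
structure FMap (FZ : Fam Z) (FS : Fam S) (π : Z → S) : Prop where
  cont : Continuous π
  p_eq : ∀ z, FS.p (π z) = FZ.p z
  hol : ∀ e ∈ FZ.A, ∀ ε ∈ FS.A, ∀ z ∈ e.source, π z ∈ ε.source →
    ContDiffAt ℂ ω (fun q => ε (π (e.symm q))) (e z)

/-- a holomorphic section over `Z` of the pull back of the relative canonical bundle of `S` -/
structure TwForm (FZ : Fam Z) (FS : Fam S) (π : Z → S) (h : PC S → Z → ℂ) : Prop where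
  hol : ∀ e ∈ FZ.A, ∀ ε ∈ FS.A, ∀ z ∈ e.source, π z ∈ ε.source →
    ContDiffAt ℂ ω (fun q => h ε (e.symm q)) (e z)
  change : ∀ ε ∈ FS.A, ∀ ε' ∈ FS.A, ∀ z, π z ∈ ε.source → π z ∈ ε'.source → ∀ u x,
    h ε z * detB u x = h ε' z * detB (fj ε ε' (π z) u) (fj ε ε' (π z) x)

/-- the map in charts -/
def PM (π : Z → S) (e : PC Z) (ε : PC S) (q : Cm 2 × ℂ) : Cm 2 × ℂ := ε (π (e.symm q))

section

variable {FZ : Fam Z} {FS : Fam S} {π : Z → S} {h : PC S → Z → ℂ}
  {v : PC Z → Cm 2 × ℂ → Cm 2} {ν : PC S → Cm 2 × ℂ → Cm 2}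
  {e e' : PC Z} {ε ε' : PC S} {z : Z} {y : S}

lemma FMap.nhds (hπ : FMap FZ FS π) (hz : z ∈ e.source) (hy : π z ∈ ε.source) :
    ∀ᶠ q in 𝓝 (e z), q ∈ e.target ∧ π (e.symm q) ∈ ε.source := by
  have h1 : ∀ᶠ q in 𝓝 (e z), q ∈ e.target := e.open_target.mem_nhds (e.map_source hz)
  have h2 : ContinuousAt (fun q => π (e.symm q)) (e z) :=
    ContinuousAt.comp (g := π) hπ.cont.continuousAt (e.continuousAt_symm (e.map_source hz))
  have h3 : ∀ᶠ q in 𝓝 (e z), π (e.symm q) ∈ ε.source := by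
    refine h2.eventually (ε.open_source.mem_nhds ?_)
    show π (e.symm (e z)) ∈ ε.source
    rw [e.left_inv hz]
    exact hy
  exact h1.and h3

lemma PM_self (hz : z ∈ e.source) : PM π e ε (e z) = ε (π z) := by
  unfold PM; rw [e.left_inv hz]

/-- local data at a point of `Z` -/
lemma mkLoc (hπ : FMap FZ FS π) (hh : TwForm FZ FS π h) (hv : IsLift FZ v) (hν : IsLift FS ν)
    (he : e ∈ FZ.A) (hε : ε ∈ FS.A) (hz : z ∈ e.source) (hy : π z ∈ ε.source) :
    Loc (PM π e ε) (fun q => h ε (e.symm q)) (fun _ => 1) (v e) (ν ε) (e z) where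
  hΦ := hπ.hol e he ε hε z hz hy
  hΦ2 := by
    filter_upwards [hπ.nhds hz hy] with q hq
    show (ε (π (e.symm q))).2 = q.2
    rw [FS.chart_p ε hε _ hq.2, hπ.p_eq, Fam.p_symm he hq.1]
  hf := hh.hol e he ε hε z hz hy
  hg := contDiffAt_const
  hv := hv.smooth e he _ (e.map_source hz)
  hν := by
    rw [PM_self hz]
    exact hν.smooth ε hε _ (ε.map_source hy)

/-- change of the chart below -/
lemma J_changeS (hπ : FMap FZ FS π) (he : e ∈ FZ.A) (hε : ε ∈ FS.A) (hε' : ε' ∈ FS.A)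
    (hz : z ∈ e.source) (hy : π z ∈ ε.source) (hy' : π z ∈ ε'.source) (a : Cm 2 × ℂ) :
    fderiv ℝ (PM π e ε') (e z) a = tj ε ε' (π z) (fderiv ℝ (PM π e ε) (e z) a) := by
  have h1 : PM π e ε' =ᶠ[𝓝 (e z)] fun q => ε' (ε.symm (PM π e ε q)) := by
    filter_upwards [hπ.nhds (ε := ε) hz hy] with q hq
    unfold PM
    rw [ε.left_inv hq.2]
  have hd : DifferentiableAt ℝ (PM π e ε) (e z) :=
    ((hπ.hol e he ε hε z hz hy).differentiableAt (by simp)).restrictScalars ℝ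
  have h3 : HasFDerivAt (fun q => ε' (ε.symm q)) (tj ε ε' (π z)) (PM π e ε (e z)) := by
    rw [PM_self hz]
    exact (tr_diffR hε hε' hy hy').hasFDerivAt
  have h4 := h3.comp (e z) hd.hasFDerivAt
  rw [(h4.congr_of_eventuallyEq h1).fderiv]
  rfl

/-- change of the chart above -/
lemma J_changeZ (hπ : FMap FZ FS π) (he : e ∈ FZ.A) (he' : e' ∈ FZ.A) (hε : ε ∈ FS.A)
    (hz : z ∈ e.source) (hz' : z ∈ e'.source) (hy : π z ∈ ε.source) (a : Cm 2 × ℂ) :
    fderiv ℝ (PM π e ε) (e z) a = fderiv ℝ (PM π e' ε) (e' z) (tj e e' z a) := by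
  have h1 : PM π e ε =ᶠ[𝓝 (e z)] fun q => PM π e' ε (e' (e.symm q)) := by
    filter_upwards [nhds_overlap hz hz'] with q hq
    unfold PM
    rw [e'.left_inv hq.2]
  have hd : DifferentiableAt ℝ (PM π e' ε) (e' (e.symm (e z))) := by
    rw [e.left_inv hz]
    exact ((hπ.hol e' he' ε hε z hz' hy).differentiableAt (by simp)).restrictScalars ℝ
  have h4 := hd.hasFDerivAt.comp (e z) (tr_diffR he he' hz hz').hasFDerivAt
  rw [(h4.congr_of_eventuallyEq h1).fderiv, e.left_inv hz]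
  rfl

lemma fpart_eq (L : Cm 2 × ℂ →L[ℝ] Cm 2 × ℂ) (u : Cm 2) : (L (u, 0)).1 = fpart L u := rfl

/-- tensoriality of the antilinear part of the fibre derivative of a lift -/
lemma BL_change (hν : IsLift FS ν) (hε : ε ∈ FS.A) (hε' : ε' ∈ FS.A)
    (hy : y ∈ ε.source) (hy' : y ∈ ε'.source) (a : Cm 2) :
    BL (ν ε') (ε' y) (fj ε ε' y a) = fj ε ε' y (BL (ν ε) (ε y) a) := by
  have hL : Loc (fun q => ε' (ε.symm q)) (fun _ => 1) (fun _ => 1) (ν ε) (ν ε') (ε y) :=
    { hΦ := FS.trans ε hε ε' hε' y hy hy'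
      hΦ2 := tr_snd hε hε' hy hy'
      hf := contDiffAt_const
      hg := contDiffAt_const
      hv := hν.smooth ε hε _ (ε.map_source hy)
      hν := by
        rw [ε.left_inv hy]
        exact hν.smooth ε' hε' _ (ε'.map_source hy') }
  have hx : xiL (fun q => ε' (ε.symm q)) (ν ε) (ν ε') =ᶠ[𝓝 (ε y)] fun _ => 0 := by
    filter_upwards [nhds_overlap hy hy'] with p hp
    have h1 := hν.change ε hε ε' hε' (ε.symm p) (ε.map_target hp.1) hp.2
    rw [ε.right_inv hp.1] at h1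
    have h2 : tj ε ε' (ε.symm p) = fderiv ℝ (fun q => ε' (ε.symm q)) p := by
      unfold tj; rw [ε.right_inv hp.1]
    rw [h2] at h1
    unfold xiL
    rw [h1, sub_self]
  have hd0 : ∀ b : Cm 2, dfv (ν ε') (ε' y) (fj ε ε' y b) =
      (fderiv ℝ (fderiv ℝ (fun q => ε' (ε.symm q))) (ε y) (b, 0) (ν ε (ε y), 1)).1 +
        fj ε ε' y (dfv (ν ε) (ε y) b) := by
    intro b
    have h1 := hL.fderiv_xi (b, 0)
    rw [hx.fderiv_eq] at h1
    simp only [fderiv_fun_const, Pi.zero_apply, _root_.zero_apply] at h1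
    have h2 : fderiv ℝ (fun q => ε' (ε.symm q)) (ε y) (b, 0) = (fj ε ε' y b, 0) :=
      tj_inl hε hε' hy hy' b
    have h3 : (fderiv ℝ (fun q => ε' (ε.symm q)) (ε y) (fderiv ℝ (ν ε) (ε y) (b, 0), 0)).1 =
      fj ε ε' y (dfv (ν ε) (ε y) b) := rfl
    rw [h2, h3, ε.left_inv hy] at h1
    have h4 : dfv (ν ε') (ε' y) (fj ε ε' y b) = fderiv ℝ (ν ε') (ε' y) (fj ε ε' y b, 0) := rfl
    rw [h4]
    exact (sub_eq_zero.1 h1.symm).symm
  have hI : Complex.I • fj ε ε' y a = fj ε ε' y (Complex.I • a) :=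
    (fjL_smul hε hε' hy hy' Complex.I a).symm
  have hS : (fderiv ℝ (fderiv ℝ (fun q => ε' (ε.symm q))) (ε y) (Complex.I • a, 0)
      (ν ε (ε y), 1)).1 = Complex.I •
        (fderiv ℝ (fderiv ℝ (fun q => ε' (ε.symm q))) (ε y) (a, 0) (ν ε (ε y), 1)).1 := by
    have : ((Complex.I • a, 0) : Cm 2 × ℂ) = Complex.I • ((a, 0) : Cm 2 × ℂ) := by simp
    rw [this, hL.S_smul_left, Prod.smul_fst]
  have hlin : ∀ b c : Cm 2, fj ε ε' y (b + c) = fj ε ε' y b + fj ε ε' y c := fun b c =>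
    map_add (fjL ε ε' y) b c
  have hsm : ∀ (r : ℝ) (b : Cm 2), fj ε ε' y (r • b) = r • fj ε ε' y b := fun r b =>
    map_smul (fjL ε ε' y) r b
  have hIs : ∀ b : Cm 2, fj ε ε' y (Complex.I • b) = Complex.I • fj ε ε' y b := fun b =>
    fjL_smul hε hε' hy hy' Complex.I b
  unfold BL anti
  simp only [_root_.smul_apply, _root_.add_apply, ContinuousLinearMap.comp_apply, mI_apply]
  rw [hI, hd0, hd0, hS, hsm, hlin, hIs]
  congr 1
  rw [smul_add, smul_smul, Complex.I_mul_I, neg_smul, one_smul]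
  abel

/-- change of the vertical vector, chart below -/
lemma xi_changeS (hπ : FMap FZ FS π) (hν : IsLift FS ν) (he : e ∈ FZ.A)
    (hε : ε ∈ FS.A) (hε' : ε' ∈ FS.A) (hz : z ∈ e.source) (hy : π z ∈ ε.source)
    (hy' : π z ∈ ε'.source) (hL : Loc (PM π e ε) (fun q => h ε (e.symm q)) (fun _ => 1)
      (v e) (ν ε) (e z)) :
    xiL (PM π e ε') (v e) (ν ε') (e z) =
      fj ε ε' (π z) (xiL (PM π e ε) (v e) (ν ε) (e z)) := by
  unfold xiL
  rw [J_changeS hπ he hε hε' hz hy hy', PM_self hz, PM_self hz]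
  have h1 := hν.change ε hε ε' hε' (π z) hy hy'
  have h2 : ν ε' (ε' (π z)) = (tj ε ε' (π z) (ν ε (ε (π z)), 1)).1 := by rw [h1]
  have h3 : fderiv ℝ (PM π e ε) (e z) (v e (e z), 1) - (ν ε (ε (π z)), 1) =
      ((fderiv ℝ (PM π e ε) (e z) (v e (e z), 1)).1 - ν ε (ε (π z)), 0) := by
    refine Prod.ext rfl ?_
    have := hL.J_snd (v e (e z), 1)
    show (fderiv ℝ (PM π e ε) (e z) (v e (e z), 1)).2 - 1 = 0
    rw [this, sub_self]
  rw [h2, ← Prod.fst_sub, ← map_sub, h3]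
  rfl

/-- change of the vertical vector, chart above -/
lemma xi_changeZ (hπ : FMap FZ FS π) (hv : IsLift FZ v) (he : e ∈ FZ.A) (he' : e' ∈ FZ.A)
    (hε : ε ∈ FS.A) (hz : z ∈ e.source) (hz' : z ∈ e'.source) (hy : π z ∈ ε.source) :
    xiL (PM π e ε) (v e) (ν ε) (e z) = xiL (PM π e' ε) (v e') (ν ε) (e' z) := by
  unfold xiL
  rw [J_changeZ hπ he he' hε hz hz' hy, hv.change e he e' he' z hz hz', PM_self hz, PM_self hz']

/-! ### the global forms -/

/-- a chart of the family below at a point -/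
def cS (FS : Fam S) (y : S) : PC S := (FS.cover y).choose

lemma cS_mem (FS : Fam S) (y : S) : cS FS y ∈ FS.A := (FS.cover y).choose_spec.1

lemma cS_src (FS : Fam S) (y : S) : y ∈ (cS FS y).source := (FS.cover y).choose_spec.2

/-- form upstairs -/
def etaG (FS : Fam S) (π : Z → S) (h : PC S → Z → ℂ) (e : PC Z) (q : Cm 2 × ℂ) : BF :=
  etaL (PM π e (cS FS (π (e.symm q)))) (fun q' => h (cS FS (π (e.symm q))) (e.symm q'))
    (fun _ => 1) q

/-- first primitive -/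
def thG (FS : Fam S) (π : Z → S) (h : PC S → Z → ℂ) (v : PC Z → Cm 2 × ℂ → Cm 2)
    (ν : PC S → Cm 2 × ℂ → Cm 2) (e : PC Z) (q : Cm 2 × ℂ) : LF :=
  thetaL (PM π e (cS FS (π (e.symm q)))) (fun q' => h (cS FS (π (e.symm q))) (e.symm q'))
    (fun _ => 1) (v e) (ν (cS FS (π (e.symm q)))) q

/-- second primitive -/
def thPG (FS : Fam S) (π : Z → S) (h : PC S → Z → ℂ) (v : PC Z → Cm 2 × ℂ → Cm 2)
    (ν : PC S → Cm 2 × ℂ → Cm 2) (e : PC Z) (q : Cm 2 × ℂ) : LF :=
  thetaP (PM π e (cS FS (π (e.symm q)))) (fun q' => h (cS FS (π (e.symm q))) (e.symm q'))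
    (fun _ => 1) (v e) (ν (cS FS (π (e.symm q)))) q

/-- the `(1,1)`-form -/
def muG (FS : Fam S) (π : Z → S) (h : PC S → Z → ℂ)
    (ν : PC S → Cm 2 × ℂ → Cm 2) (e : PC Z) (q : Cm 2 × ℂ) : BF :=
  muL (PM π e (cS FS (π (e.symm q)))) (fun q' => h (cS FS (π (e.symm q))) (e.symm q'))
    (fun _ => 1) (ν (cS FS (π (e.symm q)))) q

/-- the `(0,2)`-form in charts -/
def beU (Φ : Cm 2 × ℂ → Cm 2 × ℂ) (f : Cm 2 × ℂ → ℂ) (ν : Cm 2 × ℂ → Cm 2)
    (q : Cm 2 × ℂ) : BF := f q • pbB (fpart (fderiv ℝ Φ q)) (betL (fun _ => 1) ν (Φ q))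

/-- the `(0,2)`-form -/
def beG (FS : Fam S) (π : Z → S) (h : PC S → Z → ℂ)
    (ν : PC S → Cm 2 × ℂ → Cm 2) (e : PC Z) (q : Cm 2 × ℂ) : BF :=
  beU (PM π e (cS FS (π (e.symm q)))) (fun q' => h (cS FS (π (e.symm q))) (e.symm q'))
    (ν (cS FS (π (e.symm q)))) q

lemma fpart_J (hπ : FMap FZ FS π) (he : e ∈ FZ.A) (hε : ε ∈ FS.A) (hε' : ε' ∈ FS.A)
    (hz : z ∈ e.source) (hy : π z ∈ ε.source) (hy' : π z ∈ ε'.source)
    (hL : Loc (PM π e ε) (fun q => h ε (e.symm q)) (fun _ => 1) (v e) (ν ε) (e z)) (u : Cm 2) :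
    (fderiv ℝ (PM π e ε') (e z) (u, 0)).1 = fj ε ε' (π z) (fderiv ℝ (PM π e ε) (e z) (u, 0)).1 := by
  rw [J_changeS hπ he hε hε' hz hy hy', hL.J_vert]
  rfl

lemma beU_apply (Φ : Cm 2 × ℂ → Cm 2 × ℂ) (f : Cm 2 × ℂ → ℂ) (ν : Cm 2 × ℂ → Cm 2)
    (q : Cm 2 × ℂ) (u x : Cm 2) : beU Φ f ν q u x =
      2 * (f q * detB (BL ν (Φ q) (fderiv ℝ Φ q (u, 0)).1)
        (BL ν (Φ q) (fderiv ℝ Φ q (x, 0)).1)) := by
  have h1 : beU Φ f ν q u x = f q * (2 * 1 * detB (BL ν (Φ q) (fderiv ℝ Φ q (u, 0)).1)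
        (BL ν (Φ q) (fderiv ℝ Φ q (x, 0)).1)) := rfl
  rw [h1]; ring

section change

variable (hπ : FMap FZ FS π) (hh : TwForm FZ FS π h) (hv : IsLift FZ v) (hν : IsLift FS ν)
  (he : e ∈ FZ.A) (hε : ε ∈ FS.A) (hε' : ε' ∈ FS.A) (hz : z ∈ e.source)
  (hy : π z ∈ ε.source) (hy' : π z ∈ ε'.source)

include hπ hh hv hν he hε hε' hz hy hy'

lemma eta_indep : etaL (PM π e ε') (fun q => h ε' (e.symm q)) (fun _ => 1) (e z) =
    etaL (PM π e ε) (fun q => h ε (e.symm q)) (fun _ => 1) (e z) := by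
  have hL := mkLoc hπ hh hv hν he hε hz hy
  ext u x
  rw [etaL_apply, etaL_apply, fpart_J hπ he hε hε' hz hy hy' hL, fpart_J hπ he hε hε' hz hy hy' hL]
  unfold fg
  simp only [mul_one, e.left_inv hz]
  exact (hh.change ε hε ε' hε' z hy hy' _ _).symm

lemma theta_indep : thetaL (PM π e ε') (fun q => h ε' (e.symm q)) (fun _ => 1) (v e) (ν ε') (e z) =
    thetaL (PM π e ε) (fun q => h ε (e.symm q)) (fun _ => 1) (v e) (ν ε) (e z) := by
  have hL := mkLoc hπ hh hv hν he hε hz hy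
  ext x
  rw [thetaL_apply, thetaL_apply, fpart_J hπ he hε hε' hz hy hy' hL,
    xi_changeS hπ hν he hε hε' hz hy hy' hL]
  unfold fg
  simp only [mul_one, e.left_inv hz]
  exact (hh.change ε hε ε' hε' z hy hy' _ _).symm

lemma thetaP_indep :
    thetaP (PM π e ε') (fun q => h ε' (e.symm q)) (fun _ => 1) (v e) (ν ε') (e z) =
    thetaP (PM π e ε) (fun q => h ε (e.symm q)) (fun _ => 1) (v e) (ν ε) (e z) := by
  have hL := mkLoc hπ hh hv hν he hε hz hy
  ext x
  rw [thetaP_apply, thetaP_apply, fpart_J hπ he hε hε' hz hy hy' hL,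
    xi_changeS hπ hν he hε hε' hz hy hy' hL, PM_self hz, PM_self hz,
    BL_change hν hε hε' hy hy']
  unfold fg
  simp only [mul_one, e.left_inv hz]
  exact (hh.change ε hε ε' hε' z hy hy' _ _).symm

lemma mu_indep : muL (PM π e ε') (fun q => h ε' (e.symm q)) (fun _ => 1) (ν ε') (e z) =
    muL (PM π e ε) (fun q => h ε (e.symm q)) (fun _ => 1) (ν ε) (e z) := by
  have hL := mkLoc hπ hh hv hν he hε hz hy
  ext u x
  rw [muL_apply, muL_apply, fpart_J hπ he hε hε' hz hy hy' hL,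
    fpart_J hπ he hε hε' hz hy hy' hL, PM_self hz, PM_self hz,
    BL_change hν hε hε' hy hy', BL_change hν hε hε' hy hy', mul_add, mul_add]
  unfold fg
  simp only [mul_one, e.left_inv hz]
  rw [hh.change ε hε ε' hε' z hy hy', hh.change ε hε ε' hε' z hy hy']

lemma be_indep : beU (PM π e ε') (fun q => h ε' (e.symm q)) (ν ε') (e z) =
    beU (PM π e ε) (fun q => h ε (e.symm q)) (ν ε) (e z) := by
  have hL := mkLoc hπ hh hv hν he hε hz hy
  ext u x
  rw [beU_apply, beU_apply, fpart_J hπ he hε hε' hz hy hy' hL,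
    fpart_J hπ he hε hε' hz hy hy' hL, PM_self hz, PM_self hz,
    BL_change hν hε hε' hy hy', BL_change hν hε hε' hy hy']
  simp only [e.left_inv hz]
  rw [hh.change ε hε ε' hε' z hy hy']

end change

section glob

variable (hπ : FMap FZ FS π) (hh : TwForm FZ FS π h) (hv : IsLift FZ v) (hν : IsLift FS ν)
include hπ hh hv hν

section ev
variable (he : e ∈ FZ.A) (hε : ε ∈ FS.A) (hz : z ∈ e.source) (hy : π z ∈ ε.source)
include he hε hz hy

lemma etaG_ev : etaG FS π h e =ᶠ[𝓝 (e z)]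
    etaL (PM π e ε) (fun q => h ε (e.symm q)) (fun _ => 1) := by
  filter_upwards [hπ.nhds hz hy] with q hq
  have h1 := eta_indep hπ hh hv hν he hε (cS_mem FS (π (e.symm q))) (e.map_target hq.1) hq.2
    (cS_src FS _)
  rw [e.right_inv hq.1] at h1
  exact h1

lemma thG_ev : thG FS π h v ν e =ᶠ[𝓝 (e z)]
    thetaL (PM π e ε) (fun q => h ε (e.symm q)) (fun _ => 1) (v e) (ν ε) := by
  filter_upwards [hπ.nhds hz hy] with q hq
  have h1 := theta_indep hπ hh hv hν he hε (cS_mem FS (π (e.symm q))) (e.map_target hq.1) hq.2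
    (cS_src FS _)
  rw [e.right_inv hq.1] at h1
  exact h1

lemma thPG_ev : thPG FS π h v ν e =ᶠ[𝓝 (e z)]
    thetaP (PM π e ε) (fun q => h ε (e.symm q)) (fun _ => 1) (v e) (ν ε) := by
  filter_upwards [hπ.nhds hz hy] with q hq
  have h1 := thetaP_indep hπ hh hv hν he hε (cS_mem FS (π (e.symm q))) (e.map_target hq.1) hq.2
    (cS_src FS _)
  rw [e.right_inv hq.1] at h1
  exact h1

lemma muG_ev : muG FS π h ν e =ᶠ[𝓝 (e z)]
    muL (PM π e ε) (fun q => h ε (e.symm q)) (fun _ => 1) (ν ε) := by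
  filter_upwards [hπ.nhds hz hy] with q hq
  have h1 := mu_indep hπ hh hv hν he hε (cS_mem FS (π (e.symm q))) (e.map_target hq.1) hq.2
    (cS_src FS _)
  rw [e.right_inv hq.1] at h1
  exact h1

lemma beG_ev : beG FS π h ν e =ᶠ[𝓝 (e z)]
    beU (PM π e ε) (fun q => h ε (e.symm q)) (ν ε) := by
  filter_upwards [hπ.nhds hz hy] with q hq
  have h1 := be_indep hπ hh hv hν he hε (cS_mem FS (π (e.symm q))) (e.map_target hq.1) hq.2
    (cS_src FS _)
  rw [e.right_inv hq.1] at h1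
  exact h1

end ev

omit hh hv hν in
lemma fpart_JZ (he : e ∈ FZ.A) (he' : e' ∈ FZ.A) (hε : ε ∈ FS.A) (hz : z ∈ e.source)
    (hz' : z ∈ e'.source) (hy : π z ∈ ε.source) (u : Cm 2) :
    (fderiv ℝ (PM π e ε) (e z) (u, 0)).1 =
      (fderiv ℝ (PM π e' ε) (e' z) (fj e e' z u, 0)).1 := by
  rw [J_changeZ hπ he he' hε hz hz' hy, tj_inl he he' hz hz']

theorem isRF2_etaG : IsRF2 FZ (etaG FS π h) where
  smooth e he q hq := by
    have h1 := etaG_ev hπ hh hv hν he (cS_mem FS (π (e.symm q))) (e.map_target hq) (cS_src FS _)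
    have h2 := (mkLoc hπ hh hv hν he (cS_mem FS (π (e.symm q))) (e.map_target hq)
      (cS_src FS _)).smooth_eta
    rw [e.right_inv hq] at h1 h2
    exact h2.congr_of_eventuallyEq h1
  alt e he q hq u x := by
    have h1 : ∀ u x, etaG FS π h e q u x = fg (PM π e (cS FS (π (e.symm q))))
      (fun q' => h (cS FS (π (e.symm q))) (e.symm q')) (fun _ => 1) q *
        detB (fderiv ℝ (PM π e (cS FS (π (e.symm q)))) q (u, 0)).1
          (fderiv ℝ (PM π e (cS FS (π (e.symm q)))) q (x, 0)).1 := fun u x => rfl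
    rw [h1, h1, detB_swap]; ring
  change e he e' he' z hz hz' u x := by
    have hε := cS_mem FS (π z)
    have hy := cS_src FS (π z)
    rw [(etaG_ev hπ hh hv hν he hε hz hy).self_of_nhds,
      (etaG_ev hπ hh hv hν he' hε hz' hy).self_of_nhds, etaL_apply, etaL_apply,
      fpart_JZ hπ he he' hε hz hz' hy, fpart_JZ hπ he he' hε hz hz' hy]
    unfold fg
    simp only [e.left_inv hz, e'.left_inv hz']

theorem isRF1_thG : IsRF1 FZ (thG FS π h v ν) where
  smooth e he q hq := by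
    have h1 := thG_ev hπ hh hv hν he (cS_mem FS (π (e.symm q))) (e.map_target hq) (cS_src FS _)
    have h2 := (mkLoc hπ hh hv hν he (cS_mem FS (π (e.symm q))) (e.map_target hq)
      (cS_src FS _)).smooth_theta
    rw [e.right_inv hq] at h1 h2
    exact h2.congr_of_eventuallyEq h1
  change e he e' he' z hz hz' u := by
    have hε := cS_mem FS (π z)
    have hy := cS_src FS (π z)
    rw [(thG_ev hπ hh hv hν he hε hz hy).self_of_nhds,
      (thG_ev hπ hh hv hν he' hε hz' hy).self_of_nhds, thetaL_apply, thetaL_apply,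
      fpart_JZ hπ he he' hε hz hz' hy, xi_changeZ hπ hv he he' hε hz hz' hy]
    unfold fg
    simp only [e.left_inv hz, e'.left_inv hz']

theorem isRF1_thPG : IsRF1 FZ (thPG FS π h v ν) where
  smooth e he q hq := by
    have h1 := thPG_ev hπ hh hv hν he (cS_mem FS (π (e.symm q))) (e.map_target hq) (cS_src FS _)
    have h2 := (mkLoc hπ hh hv hν he (cS_mem FS (π (e.symm q))) (e.map_target hq)
      (cS_src FS _)).smooth_thetaP
    rw [e.right_inv hq] at h1 h2
    exact h2.congr_of_eventuallyEq h1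
  change e he e' he' z hz hz' u := by
    have hε := cS_mem FS (π z)
    have hy := cS_src FS (π z)
    rw [(thPG_ev hπ hh hv hν he hε hz hy).self_of_nhds,
      (thPG_ev hπ hh hv hν he' hε hz' hy).self_of_nhds, thetaP_apply, thetaP_apply,
      fpart_JZ hπ he he' hε hz hz' hy, xi_changeZ hπ hv he he' hε hz hz' hy,
      PM_self hz, PM_self hz']
    unfold fg
    simp only [e.left_inv hz, e'.left_inv hz']

theorem isRF2_muG : IsRF2 FZ (muG FS π h ν) where
  smooth e he q hq := by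
    have h1 := muG_ev hπ hh hv hν he (cS_mem FS (π (e.symm q))) (e.map_target hq) (cS_src FS _)
    have h2 := (mkLoc hπ hh hv hν he (cS_mem FS (π (e.symm q))) (e.map_target hq)
      (cS_src FS _)).smooth_muL
    rw [e.right_inv hq] at h1 h2
    exact h2.congr_of_eventuallyEq h1
  alt e he q hq u x := by
    have h1 : ∀ u x, muG FS π h ν e q u x = _ := fun u x => muL_apply q u x
    rw [h1, h1]
    simp only [detB_apply]
    ring
  change e he e' he' z hz hz' u x := by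
    have hε := cS_mem FS (π z)
    have hy := cS_src FS (π z)
    rw [(muG_ev hπ hh hv hν he hε hz hy).self_of_nhds,
      (muG_ev hπ hh hv hν he' hε hz' hy).self_of_nhds, muL_apply, muL_apply,
      fpart_JZ hπ he he' hε hz hz' hy, fpart_JZ hπ he he' hε hz hz' hy, PM_self hz, PM_self hz']
    unfold fg
    simp only [e.left_inv hz, e'.left_inv hz']

lemma smooth_beU (he : e ∈ FZ.A) (hε : ε ∈ FS.A) (hz : z ∈ e.source) (hy : π z ∈ ε.source) :
    ContDiffAt ℝ ∞ (beU (PM π e ε) (fun q => h ε (e.symm q)) (ν ε)) (e z) := by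
  have hL := mkLoc hπ hh hv hν he hε hz hy
  have h2 : ContDiffAt ℝ ∞ (betL (fun _ => 1) (ν ε)) (PM π e ε (e z)) := by
    unfold betL
    exact contDiffAt_smulB contDiffAt_const (contDiffAt_pbB (contDiffAt_BL hL.hν) contDiffAt_const)
  unfold beU
  exact contDiffAt_smulB hL.smooth_f (contDiffAt_pbB hL.smooth_fpart (h2.comp _ hL.smooth_Φ))

theorem isRF2_beG : IsRF2 FZ (beG FS π h ν) where
  smooth e he q hq := by
    have h1 := beG_ev hπ hh hv hν he (cS_mem FS (π (e.symm q))) (e.map_target hq) (cS_src FS _)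
    have h2 := smooth_beU hπ hh hv hν he (cS_mem FS (π (e.symm q))) (e.map_target hq)
      (cS_src FS _)
    rw [e.right_inv hq] at h1 h2
    exact h2.congr_of_eventuallyEq h1
  alt e he q hq u x := by
    have h1 : ∀ u x, beG FS π h ν e q u x = _ := fun u x => beU_apply _ _ _ q u x
    rw [h1, h1]
    simp only [detB_apply]
    ring
  change e he e' he' z hz hz' u x := by
    have hε := cS_mem FS (π z)
    have hy := cS_src FS (π z)
    rw [(beG_ev hπ hh hv hν he hε hz hy).self_of_nhds,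
      (beG_ev hπ hh hv hν he' hε hz' hy).self_of_nhds, beU_apply, beU_apply,
      fpart_JZ hπ he he' hε hz hz' hy, fpart_JZ hπ he he' hε hz hz' hy, PM_self hz, PM_self hz']
    simp only [e.left_inv hz, e'.left_inv hz']

end glob

end

end Vale.Agent.P298.H217.Bdd
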