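import Vale.Agent.P298.H217.Bdd3
import Vale.Agent.P298.H39.Asm2

/-!
# P298, block S1-GEO, row R5 (BDD), pairing algebra and the global identities
-/

open scoped ContDiff Topology ComplexConjugate
open Vale.Agent.P272.K Vale.Agent.P298.H39 Filter

set_option maxSynthPendingDepth 3

noncomputable section

namespace Vale.Agent.P298.H217.Bdd

/-! ### monotonicity of the fibre integral -/

section mono
variable {Z : Type} [TopologicalSpace Z] [T2Space Z] {F : Fam Z}

lemma intF_re_mono {D D' : PC Z → Cm 2 × ℂ → ℂ} {t : ℂ} (hD : IsDen F D) (hD' : IsDen F D')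
    (h : ∀ e ∈ F.A, ∀ q ∈ e.target, q.2 = t → (D e q).re ≤ (D' e q).re) :
    (intF F t D).re ≤ (intF F t D').re := by
  by_cases ht : t ∈ F.Ω
  · have := F.compact_fib ht
    rw [intF_def ht, intF_def ht]
    have h1 := INT.intX_mono (hD.isDensity_re t) (hD'.isDensity_re t) (fun f x hx => by
      obtain ⟨e, he⟩ := mem_atlas_fib.mp hx.1
      rw [hD.res_apply he hx.2, hD'.res_apply he hx.2]
      refine h e he.mem _ (e.map_source ((he.src x).mp hx.2)) ?_
      rw [he.apply hx.2])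
    simpa using h1
  · rw [intF, intF, dif_neg ht, dif_neg ht]

end mono

/-! ### algebra of the pairing -/

section alg

lemma ty20_eq {α : BF} (h : Ty20 α) (ha : ∀ u v, α u v = -α v u) :
    α = α (bs 0) (bs 2) • detB := by
  have h00 : α (bs 0) (bs 0) = 0 := by
    have := ha (bs 0) (bs 0)
    linear_combination this / 2
  have h22 : α (bs 2) (bs 2) = 0 := by
    have := ha (bs 2) (bs 2)
    linear_combination this / 2
  have h20 : α (bs 2) (bs 0) = -α (bs 0) (bs 2) := ha _ _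
  have e1 : ∀ u : Cm 2, u = u 0 • bs 0 + u 1 • bs 2 := by
    intro u
    ext i; fin_cases i <;> simp [bs]
  have hc : ∀ (c : ℂ) (u v : Cm 2), α (c • u) v = c * α u v ∧ α u (c • v) = c * α u v := by
    intro c u v
    have hr : ∀ w : Cm 2, c • w = c.re • w + c.im • (Complex.I • w) := by
      intro w
      ext i
      simp only [Pi.smul_apply, Pi.add_apply, smul_eq_mul, Complex.real_smul]
      linear_combination (-(w i)) * (Complex.re_add_im c)
    refine ⟨?_, ?_⟩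
    · rw [hr, map_add, map_smul, map_smul, _root_.add_apply, _root_.smul_apply,
        _root_.smul_apply, (h u v).1, Complex.real_smul, Complex.real_smul]
      linear_combination (α u v) * (Complex.re_add_im c)
    · rw [hr, map_add, map_smul, map_smul, (h u v).2, Complex.real_smul, Complex.real_smul]
      linear_combination (α u v) * (Complex.re_add_im c)
  ext u x
  conv_lhs => rw [e1 u, e1 x]
  rw [map_add, map_add, _root_.add_apply, _root_.add_apply]
  simp only [(hc _ _ _).1, (hc _ _ _).2]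
  rw [h00, h22, h20, _root_.smul_apply, _root_.smul_apply, detB_apply, smul_eq_mul]
  ring

lemma prh_detB : prh detB detB = 4 := by
  rw [prh, prg_comm, prg_detB]
  unfold c02
  simp only [cjB_apply, detB_apply, bs]
  simp
  norm_num

lemma prh_ty20 {α : BF} (h : Ty20 α) (ha : ∀ u v, α u v = -α v u) :
    prh α α = ((4 * Complex.normSq (α (bs 0) (bs 2)) : ℝ) : ℂ) := by
  have h1 : prh α α = prh (α (bs 0) (bs 2) • detB) (α (bs 0) (bs 2) • detB) := by
    rw [← ty20_eq h ha]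
  rw [h1, prh_smul_left, prh_smul_right, prh_detB, ← mul_assoc, Complex.mul_conj]
  push_cast
  ring

lemma prh_ty20_nonneg {α : BF} (h : Ty20 α) (ha : ∀ u v, α u v = -α v u) :
    0 ≤ (prh α α).re := by
  rw [prh_ty20 h ha, Complex.ofReal_re]
  exact mul_nonneg (by norm_num) (Complex.normSq_nonneg _)

lemma ty20_cjB {α : BF} (h : Ty02 α) : Ty20 (cjB α) := by
  intro u v
  rw [cjB_apply, cjB_apply, cjB_apply, (h u v).1, (h u v).2]
  simp

lemma alt_cjB {α : BF} (ha : ∀ u v, α u v = -α v u) : ∀ u v, cjB α u v = -cjB α v u := by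
  intro u v
  rw [cjB_apply, cjB_apply, ha u v, map_neg]

lemma ty11_cjB {α : BF} (h : Ty11 α) : Ty11 (cjB α) := by
  intro u v
  rw [cjB_apply, cjB_apply, h u v]

lemma prh_cjB (α β : BF) : prh (cjB α) (cjB β) = prh β α := by
  rw [prh, cjB_cjB, prg_comm, prh]

lemma prh_ty02_nonneg {α : BF} (h : Ty02 α) (ha : ∀ u v, α u v = -α v u) :
    0 ≤ (prh α α).re := by
  rw [← prh_cjB]
  exact prh_ty20_nonneg (ty20_cjB h) (alt_cjB ha)

lemma prh_11_20 {α β : BF} (hα : Ty11 α) (hβ : Ty20 β) (hb : ∀ u v, β u v = -β v u) :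
    prh α β = 0 := by
  rw [← cjB_cjB α, prh_conj, ← prh_conj, prh, prg_cjB, ty20_eq hβ hb, prg_comm,
    prg_smul_left, prg_comm, prg_detB, c02_ty11 (ty11_cjB hα)]
  simp

lemma prh_split {κ μ : BF} (h20 : Ty20 (κ - μ)) (h11 : Ty11 μ)
    (ha : ∀ u v, (κ - μ) u v = -(κ - μ) v u) : (prh μ μ).re ≤ (prh κ κ).re := by
  obtain ⟨δ, hδ⟩ : ∃ δ, δ = κ - μ := ⟨_, rfl⟩
  have h1 : κ = δ + μ := by rw [hδ]; abel
  rw [← hδ] at h20 ha
  have h2 : prh μ δ = 0 := prh_11_20 h11 h20 ha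
  have h3 : prh δ μ = 0 := by rw [prh_conj, h2, map_zero]
  rw [h1, prh_add_left, prh_add_right, prh_add_right, h2, h3, zero_add, add_zero, Complex.add_re]
  have := prh_ty20_nonneg h20 ha
  linarith

/-- a form of type `(0,2)` only sees the coefficient `c02` -/
lemma prh_ty02 {β : BF} (h : Ty02 β) (hb : ∀ u v, β u v = -β v u) (α : BF) :
    prh α β = cjB β (bs 0) (bs 2) * c02 (fun u x => α u x) := by
  have h1 : cjB β = cjB β (bs 0) (bs 2) • detB := ty20_eq (ty20_cjB h) (alt_cjB hb)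
  rw [prh]
  conv_lhs => rw [h1]
  rw [prg_comm, prg_smul_left, prg_comm, prg_detB]

/-- pull back by a complex linear map -/
lemma prh_pbB {A : Cm 2 →L[ℝ] Cm 2} (hA : ∀ u, A (Complex.I • u) = Complex.I • A u)
    {α β : BF} (ha : ∀ u v, α u v = -α v u) (hb : ∀ u v, β u v = -β v u) :
    prh (pbB A α) (pbB A β) = ((Complex.normSq (A (Pi.single 0 1) 0 * A (Pi.single 1 1) 1 -
      A (Pi.single 0 1) 1 * A (Pi.single 1 1) 0) : ℝ) : ℂ) * prh α β :=
  prg_pull hA ha (alt_cjB hb) (fun _ _ => rfl) (fun _ _ => rfl)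

end alg

/-! ### the operator on forms -/

section DF
variable {Z : Type} [TopologicalSpace Z] {F : Fam Z} {v : PC Z → Cm 2 × ℂ → Cm 2}
  {α β : PC Z → Cm 2 × ℂ → BF}

/-- `D = (L_1 - i L_i) / 2` on forms -/
def DF (v : PC Z → Cm 2 × ℂ → Cm 2) (α : PC Z → Cm 2 × ℂ → BF) : PC Z → Cm 2 × ℂ → BF :=
  (1 / 2 : ℂ) • (lieF v 1 α + (-Complex.I) • lieF v Complex.I α)

/-- `D' = (L_1 + i L_i) / 2` on forms -/
def DF' (v : PC Z → Cm 2 × ℂ → Cm 2) (α : PC Z → Cm 2 × ℂ → BF) : PC Z → Cm 2 × ℂ → BF :=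
  (1 / 2 : ℂ) • (lieF v 1 α + Complex.I • lieF v Complex.I α)

lemma DF_apply (e : PC Z) (q : Cm 2 × ℂ) (u x : Cm 2) :
    DF v α e q u x = DD (v e) (α e) q u x := by
  have h1 : DF v α e q u x = 1 / 2 * (lieB (v e) 1 (α e) q u x +
    (-Complex.I) * lieB (v e) Complex.I (α e) q u x) := rfl
  rw [h1, lieB_apply, lieB_apply, DD]
  ring

lemma isRF2_DF (hv : IsLift F v) (hα : IsRF2 F α) : IsRF2 F (DF v α) :=
  IsRF2.smul _ ((H369.r1Nat F v 1 α hv hα).1.add
    ((H369.r1Nat F v Complex.I α hv hα).1.smul _))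

lemma isRF2_DF' (hv : IsLift F v) (hα : IsRF2 F α) : IsRF2 F (DF' v α) :=
  IsRF2.smul _ ((H369.r1Nat F v 1 α hv hα).1.add
    ((H369.r1Nat F v Complex.I α hv hα).1.smul _))

lemma isCl2_DF' (hv : IsLift F v) (hα : IsRF2 F α) (hc : IsCl2 F α) : IsCl2 F (DF' v α) := by
  have h1 := H369.r1Nat F v 1 α hv hα
  have h2 := H369.r1Nat F v Complex.I α hv hα
  exact IsCl2.smul _ (h1.1.add (h2.1.smul _)) (IsCl2.add h1.1 (h2.1.smul _) (h1.2 hc)
    (IsCl2.smul _ h2.1 (h2.2 hc)))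

lemma DF_congr (h : EqA F α β) : EqA F (DF v α) (DF v β) := by
  intro e he q hq
  show (1 / 2 : ℂ) • (lieF v 1 α e q + (-Complex.I) • lieF v Complex.I α e q) =
    (1 / 2 : ℂ) • (lieF v 1 β e q + (-Complex.I) • lieF v Complex.I β e q)
  rw [h.lieF v 1 e he q hq, h.lieF v Complex.I e he q hq]

lemma lieF_add (hα : IsRF2 F α) (hβ : IsRF2 F β) (s : ℂ) {e : PC Z} (he : e ∈ F.A)
    {q : Cm 2 × ℂ} (hq : q ∈ e.target) :
    lieF v s (α + β) e q = lieF v s α e q + lieF v s β e q := by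
  show lieB _ _ _ _ = lieB _ _ _ _ + lieB _ _ _ _
  have h2 : (α + β) e q = α e q + β e q := rfl
  rw [lieB, lieB, lieB, fderiv_add' hα hβ he hq, h2, act_add, _root_.add_apply]
  abel

lemma DF_add (hα : IsRF2 F α) (hβ : IsRF2 F β) {e : PC Z} (he : e ∈ F.A)
    {q : Cm 2 × ℂ} (hq : q ∈ e.target) :
    DF v (α + β) e q = DF v α e q + DF v β e q := by
  show (1 / 2 : ℂ) • (lieF v 1 (α + β) e q + (-Complex.I) • lieF v Complex.I (α + β) e q) =
    (1 / 2 : ℂ) • (lieF v 1 α e q + (-Complex.I) • lieF v Complex.I α e q) +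
    (1 / 2 : ℂ) • (lieF v 1 β e q + (-Complex.I) • lieF v Complex.I β e q)
  rw [lieF_add hα hβ 1 he hq, lieF_add hα hβ Complex.I he hq]
  simp only [smul_add]
  abel

lemma DM_apply' {σ : Z ≃ₜ Z} {χ : ℂ} (hσ : IsDeck F σ) (hv : IsLift F v) (hvσ : LInv F σ v)
    (a : Md F σ χ) {e : PC Z} (he : e ∈ F.A) {q : Cm 2 × ℂ} (hq : q ∈ e.target) :
    (DM hσ hv hvσ χ a).1 e q = DF v a.1 e q := by
  have h1 : (DM hσ hv hvσ χ a).1 e q = (1 / 2 : ℂ) • ((lieM hσ hv hvσ χ 1 a).1 e q -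
    Complex.I • (lieM hσ hv hvσ χ Complex.I a).1 e q) := rfl
  rw [h1, lieM_apply hσ hv hvσ 1 a he hq, lieM_apply hσ hv hvσ Complex.I a he hq]
  show _ = (1 / 2 : ℂ) • (lieB (v e) 1 (a.1 e) q + (-Complex.I) • lieB (v e) Complex.I (a.1 e) q)
  rw [neg_smul, sub_eq_add_neg]

/-- derivative rule for the pairing, on forms -/
lemma pair_lieF [T2Space Z] (hv : IsLift F v) (hα : IsRF2 F α) (hβ : IsRF2 F β) {t : ℂ}
    (ht : t ∈ F.Ω) : ∃ L : ℂ →L[ℝ] ℂ,
      HasFDerivAt (fun t => intF F t fun e q => prh (α e q) (β e q)) L t ∧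
      ∀ s, L s = (intF F t fun e q => prh (lieF v s α e q) (β e q)) +
        intF F t fun e q => prh (α e q) (lieF v s β e q) := by
  have hD : ∀ s, IsDen F fun e q => prh (lieF v s α e q) (β e q) +
      prh (α e q) (lieF v s β e q) := fun s =>
    (isDen_prh (H369.r1Nat F v s α hv hα).1 hβ).add
      (isDen_prh hα (H369.r1Nat F v s β hv hβ).1)
  obtain ⟨L, hL, eL⟩ := hasFDerivAt_intF (isDen_prh hα hβ) hv hD (fun s e he q hq =>
    fderiv_prh (hα.diff he hq) (hβ.diff he hq) (hα.alt e he q hq) (hβ.alt e he q hq) s) ht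
  refine ⟨L, hL, fun s => ?_⟩
  rw [eL s, intF_add t (isDen_prh (H369.r1Nat F v s α hv hα).1 hβ)
    (isDen_prh hα (H369.r1Nat F v s β hv hβ).1)]

end DF

end Vale.Agent.P298.H217.Bdd
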