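import Vale.Agent.P298.H217.Bdd4

/-!
# P298, block S1-GEO, row R5 (BDD), the two global identities and the pointwise bounds
-/

open scoped ContDiff Topology ComplexConjugate
open Vale.Agent.P272.K Vale.Agent.P298.H39 Filter

set_option maxSynthPendingDepth 3

noncomputable section

namespace Vale.Agent.P298.H217.Bdd

section loc

variable {Φ : Cm 2 × ℂ → Cm 2 × ℂ} {f g : Cm 2 × ℂ → ℂ} {v ν : Cm 2 × ℂ → Cm 2} {q : Cm 2 × ℂ}

/-- FIRST IDENTITY, type version -/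
lemma Loc.first (h : Loc Φ f g v ν q) {α : BF} (hα : ∀ u x, α u x = DD v (etaL Φ f g) q u x -
    d1 (thetaL Φ f g v ν) q u x - muL Φ f g ν q u x) : Ty20 α := by
  have hc : ∀ a : Cm 2, dfv ν (Φ q) a = clin (dfv ν (Φ q)) a + BL ν (Φ q) a := fun a => by
    unfold BL
    rw [← _root_.add_apply, clin_add_anti]
  have key : ∀ u x, α u x = fderiv ℝ (fg Φ f g) q (v q, 1) *
          detB (fderiv ℝ Φ q (u, 0)).1 (fderiv ℝ Φ q (x, 0)).1 -
      fderiv ℝ (fg Φ f g) q (u, 0) * detB (xiL Φ v ν q) (fderiv ℝ Φ q (x, 0)).1 +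
      fderiv ℝ (fg Φ f g) q (x, 0) * detB (xiL Φ v ν q) (fderiv ℝ Φ q (u, 0)).1 +
      fg Φ f g q * (detB (clin (dfv ν (Φ q)) (fderiv ℝ Φ q (u, 0)).1) (fderiv ℝ Φ q (x, 0)).1 +
        detB (fderiv ℝ Φ q (u, 0)).1 (clin (dfv ν (Φ q)) (fderiv ℝ Φ q (x, 0)).1)) := by
    intro u x
    rw [hα, h.kappa, muL_apply, hc, hc, map_add, _root_.add_apply, map_add]
    ring
  intro u x
  constructor
  · rw [key, key, h.J_I, h.fg_I, clin_I]
    simp only [detB_smul_left, detB_smul_right]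
    ring
  · rw [key, key, h.J_I, h.fg_I, clin_I]
    simp only [detB_smul_right]
    ring

end loc

variable {Z S : Type} [TopologicalSpace Z] [TopologicalSpace S]
  {FZ : Fam Z} {FS : Fam S} {π : Z → S} {h : PC S → Z → ℂ}
  {v : PC Z → Cm 2 × ℂ → Cm 2} {ν : PC S → Cm 2 × ℂ → Cm 2}
  {e e' : PC Z} {ε ε' : PC S} {z : Z} {y : S}

section glob

variable (hπ : FMap FZ FS π) (hh : TwForm FZ FS π h) (hv : IsLift FZ v) (hν : IsLift FS ν)
include hπ hh hv hν

/-- first global identity -/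
lemma first_glob (he : e ∈ FZ.A) {q : Cm 2 × ℂ} (hq : q ∈ e.target) :
    Ty20 (DF v (etaG FS π h) e q - d1B (thG FS π h v ν e) q - muG FS π h ν e q) := by
  have hz := e.map_target hq
  have hε := cS_mem FS (π (e.symm q))
  have hy := cS_src FS (π (e.symm q))
  have hL := mkLoc hπ hh hv hν he hε hz hy
  have h1 := etaG_ev hπ hh hv hν he hε hz hy
  have h2 := thG_ev hπ hh hv hν he hε hz hy
  have h3 := muG_ev hπ hh hv hν he hε hz hy
  rw [e.right_inv hq] at hL h1 h2 h3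
  refine hL.first fun u x => ?_
  rw [_root_.sub_apply, _root_.sub_apply, _root_.sub_apply, _root_.sub_apply, DF_apply,
    d1B_apply, h3.self_of_nhds]
  congr 1
  congr 1
  · rw [DD, DD, lie_congr h1, lie_congr h1]
  · rw [d1, d1, h2.fderiv_eq]

/-- the difference of the derivative and the first exact form -/
def kaG (FS : Fam S) (π : Z → S) (h : PC S → Z → ℂ) (v : PC Z → Cm 2 × ℂ → Cm 2)
    (ν : PC S → Cm 2 × ℂ → Cm 2) : PC Z → Cm 2 × ℂ → BF :=
  DF v (etaG FS π h) + (-1 : ℂ) • fun e q => d1B (thG FS π h v ν e) q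

omit hπ hh hv hν in
lemma kaG_apply (e : PC Z) (q : Cm 2 × ℂ) : kaG FS π h v ν e q =
    DF v (etaG FS π h) e q - d1B (thG FS π h v ν e) q := by
  show DF v (etaG FS π h) e q + (-1 : ℂ) • d1B (thG FS π h v ν e) q = _
  rw [neg_smul, one_smul, sub_eq_add_neg]

lemma isRF2_kaG : IsRF2 FZ (kaG FS π h v ν) :=
  (isRF2_DF hv (isRF2_etaG hπ hh hv hν)).add
    ((isRF2_d1B (isRF1_thG hπ hh hv hν)).smul _)

/-- second global identity -/
lemma second_glob (he : e ∈ FZ.A) {q : Cm 2 × ℂ} (hq : q ∈ e.target) :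
    c02 (fun u x => DF v (kaG FS π h v ν) e q u x) =
      c02 (fun u x => d1B (thPG FS π h v ν e) q u x) +
        c02 (fun u x => beG FS π h ν e q u x) := by
  have hz := e.map_target hq
  have hε := cS_mem FS (π (e.symm q))
  have hy := cS_src FS (π (e.symm q))
  have hL := mkLoc hπ hh hv hν he hε hz hy
  have h2 := thPG_ev hπ hh hv hν he hε hz hy
  have h3 := muG_ev hπ hh hv hν he hε hz hy
  have h4 := beG_ev hπ hh hv hν he hε hz hy
  rw [e.right_inv hq] at hL h2 h3 h4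
  have h5 := hL.second ((isRF2_kaG hπ hh hv hν).diff he hq) (by
    filter_upwards [e.open_target.mem_nhds hq, h3] with p hp hp3
    rw [← hp3, kaG_apply]
    exact first_glob hπ hh hv hν he hp)
  have h6 : c02 (fun u x => DF v (kaG FS π h v ν) e q u x) =
      c02 (DD (v e) (kaG FS π h v ν e) q) := c02_congr fun u x => DF_apply e q u x
  have h7 : c02 (fun u x => d1B (thPG FS π h v ν e) q u x) = c02 (d1 (thetaP
      (PM π e (cS FS (π (e.symm q)))) (fun q' => h (cS FS (π (e.symm q))) (e.symm q'))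
      (fun _ => 1) (v e) (ν (cS FS (π (e.symm q))))) q) := by
    refine c02_congr fun u x => ?_
    rw [d1B_apply, d1, d1, h2.fderiv_eq]
  have h8 : c02 (fun u x => beG FS π h ν e q u x) =
      h (cS FS (π (e.symm q))) (e.symm q) * c02 (fun u x =>
        pbB (fpart (fderiv ℝ (PM π e (cS FS (π (e.symm q)))) q))
          (betL (fun _ => 1) (ν (cS FS (π (e.symm q)))) (PM π e (cS FS (π (e.symm q))) q)) u x) := by
    rw [← c02_mul, h4.self_of_nhds]
    rfl
  rw [h6, h7, h8, ← h5]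
  ring

omit hh hv hν in
/-- the derivative along the fibres is complex linear -/
lemma fpart_I (he : e ∈ FZ.A) (hε : ε ∈ FS.A) (hz : z ∈ e.source) (hy : π z ∈ ε.source)
    (u : Cm 2) : fpart (fderiv ℝ (PM π e ε) (e z)) (Complex.I • u) =
      Complex.I • fpart (fderiv ℝ (PM π e ε) (e z)) u := by
  have h0 : DifferentiableAt ℂ (PM π e ε) (e z) :=
    (hπ.hol e he ε hε z hz hy).differentiableAt (by simp)
  have h1 : ((Complex.I • u, 0) : Cm 2 × ℂ) = Complex.I • ((u, 0) : Cm 2 × ℂ) := by simp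
  rw [fpart_apply, fpart_apply, h1, fderiv_real_smul h0, Prod.smul_fst]

lemma ty11_muG (he : e ∈ FZ.A) {q : Cm 2 × ℂ} (hq : q ∈ e.target) : Ty11 (muG FS π h ν e q) := by
  have hz := e.map_target hq
  have hε := cS_mem FS (π (e.symm q))
  have hy := cS_src FS (π (e.symm q))
  have hL := mkLoc hπ hh hv hν he hε hz hy
  have h3 := muG_ev hπ hh hv hν he hε hz hy
  rw [e.right_inv hq] at hL h3
  rw [h3.self_of_nhds]
  exact hL.ev_ty11.self_of_nhds

lemma ty02_beG (he : e ∈ FZ.A) {q : Cm 2 × ℂ} (hq : q ∈ e.target) : Ty02 (beG FS π h ν e q) := by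
  have hz := e.map_target hq
  have hε := cS_mem FS (π (e.symm q))
  have hy := cS_src FS (π (e.symm q))
  have hL := mkLoc hπ hh hv hν he hε hz hy
  have h3 := beG_ev hπ hh hv hν he hε hz hy
  rw [e.right_inv hq] at hL h3
  rw [h3.self_of_nhds]
  intro u x
  rw [beU_apply, beU_apply, beU_apply, hL.J_I, hL.J_I, BL_I, BL_I, detB_smul_left,
    detB_smul_right]
  constructor <;> ring

end glob

/-! ### the pointwise bounds -/

section pt

/-- the function bounding `x` -/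
def phiL (ν : Cm 2 × ℂ → Cm 2) (p : Cm 2 × ℂ) : ℝ :=
  -(prh (gamL (fun _ => 1) ν p) (gamL (fun _ => 1) ν p)).re / 4

/-- the function bounding `y` -/
def psiL (ν : Cm 2 × ℂ → Cm 2) (p : Cm 2 × ℂ) : ℝ :=
  (prh (betL (fun _ => 1) ν p) (betL (fun _ => 1) ν p)).re / 4

lemma contAt_prh {α : Cm 2 × ℂ → BF} {q : Cm 2 × ℂ} (hα : ContDiffAt ℝ ∞ α q) :
    ContinuousAt (fun q => (prh (α q) (α q)).re) q := by
  have h1 : ∀ i j, ContinuousAt (fun q => α q (bs i) (bs j)) q := fun i j =>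
    ((hα.clm_apply contDiffAt_const).clm_apply contDiffAt_const).continuousAt
  have h2 : ∀ i j, ContinuousAt (fun q => cjB (α q) (bs i) (bs j)) q := fun i j =>
    Complex.continuous_conj.continuousAt.comp (h1 i j)
  refine Complex.continuous_re.continuousAt.comp ?_
  exact (((((h1 0 1).mul (h2 2 3)).sub ((h1 0 2).mul (h2 1 3))).add ((h1 0 3).mul (h2 1 2))).add
      ((h1 1 2).mul (h2 0 3))).sub ((h1 1 3).mul (h2 0 2)) |>.add ((h1 2 3).mul (h2 0 1))

lemma contAt_phiL {ν : Cm 2 × ℂ → Cm 2} {p : Cm 2 × ℂ} (hν : ContDiffAt ℝ ∞ ν p) :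
    ContinuousAt (phiL ν) p := by
  unfold phiL
  have h1 : ContDiffAt ℝ ∞ (gamL (fun _ => 1) ν) p := by
    unfold gamL
    exact contDiffAt_smulB contDiffAt_const (contDiffAt_act (contDiffAt_BL hν) contDiffAt_const)
  exact ((contAt_prh h1).neg).div_const 4

lemma contAt_psiL {ν : Cm 2 × ℂ → Cm 2} {p : Cm 2 × ℂ} (hν : ContDiffAt ℝ ∞ ν p) :
    ContinuousAt (psiL ν) p := by
  unfold psiL
  have h1 : ContDiffAt ℝ ∞ (betL (fun _ => 1) ν) p := by
    unfold betL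
    exact contDiffAt_smulB contDiffAt_const (contDiffAt_pbB (contDiffAt_BL hν) contDiffAt_const)
  exact (contAt_prh h1).div_const 4

/-- a function on the charts is bounded on a compact set, in suitable charts -/
lemma bound_cpt {K : Set S} (hK : IsCompact K) (φ : PC S → Cm 2 × ℂ → ℝ)
    (hφ : ∀ ε ∈ FS.A, ∀ q ∈ ε.target, ContinuousAt (φ ε) q) :
    ∃ C, 0 ≤ C ∧ ∀ y ∈ K, ∃ ε ∈ FS.A, y ∈ ε.source ∧ φ ε (ε y) ≤ C := by
  refine hK.induction_on (p := fun s => ∃ C, 0 ≤ C ∧ ∀ y ∈ s, ∃ ε ∈ FS.A, y ∈ ε.source ∧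
    φ ε (ε y) ≤ C) ⟨0, le_refl _, fun y hy => absurd hy (by simp)⟩ ?_ ?_ ?_
  · rintro s t hst ⟨C, hC, h1⟩
    exact ⟨C, hC, fun y hy => h1 y (hst hy)⟩
  · rintro s t ⟨C, hC, h1⟩ ⟨C', hC', h2⟩
    refine ⟨max C C', le_max_of_le_left hC, fun y hy => ?_⟩
    rcases hy with hy | hy
    · obtain ⟨ε, h3, h4, h5⟩ := h1 y hy
      exact ⟨ε, h3, h4, h5.trans (le_max_left _ _)⟩
    · obtain ⟨ε, h3, h4, h5⟩ := h2 y hy
      exact ⟨ε, h3, h4, h5.trans (le_max_right _ _)⟩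
  · intro y _
    obtain ⟨ε, hε, hy⟩ := FS.cover y
    have h1 : ContinuousAt (fun y => φ ε (ε y)) y :=
      ContinuousAt.comp (g := φ ε) (hφ ε hε _ (ε.map_source hy)) (ε.continuousAt hy)
    have h2 : ∀ᶠ y' in 𝓝 y, φ ε (ε y') < φ ε (ε y) + 1 :=
      h1.eventually (gt_mem_nhds (lt_add_one _))
    have h3 : ∀ᶠ y' in 𝓝 y, y' ∈ ε.source := ε.open_source.mem_nhds hy
    refine ⟨{y' | φ ε (ε y') < φ ε (ε y) + 1 ∧ y' ∈ ε.source},
      mem_nhdsWithin_of_mem_nhds (h2.and h3), max 0 (φ ε (ε y) + 1), le_max_left _ _, ?_⟩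
    rintro y' ⟨h4, h5⟩
    exact ⟨ε, hε, h5, h4.le.trans (le_max_right _ _)⟩

lemma detB_alt (u x : Cm 2) : detB u x = -detB x u := detB_swap u x

lemma gamL_alt (g : Cm 2 × ℂ → ℂ) (ν : Cm 2 × ℂ → Cm 2) (p : Cm 2 × ℂ) (u x : Cm 2) :
    gamL g ν p u x = -gamL g ν p x u := by
  rw [gamL_apply, gamL_apply]
  simp only [detB_apply]
  ring

lemma betL_alt (g : Cm 2 × ℂ → ℂ) (ν : Cm 2 × ℂ → Cm 2) (p : Cm 2 × ℂ) (u x : Cm 2) :
    betL g ν p u x = -betL g ν p x u := by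
  rw [betL_apply, betL_apply]
  simp only [detB_apply]
  ring

lemma prh_smul2 (c : ℂ) (α : BF) : prh (c • α) (c • α) = ((Complex.normSq c : ℝ) : ℂ) * prh α α := by
  rw [prh_smul_left, prh_smul_right, ← mul_assoc, Complex.mul_conj]

/-- the square of the modulus of the Jacobian -/
def nJ (A : Cm 2 →L[ℝ] Cm 2) : ℝ := Complex.normSq (A (Pi.single 0 1) 0 * A (Pi.single 1 1) 1 -
      A (Pi.single 0 1) 1 * A (Pi.single 1 1) 0)

section loc2
variable {Φ : Cm 2 × ℂ → Cm 2 × ℂ} {f : Cm 2 × ℂ → ℂ} {v ν : Cm 2 × ℂ → Cm 2} {q : Cm 2 × ℂ}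
  (hJ : ∀ u, fpart (fderiv ℝ Φ q) (Complex.I • u) = Complex.I • fpart (fderiv ℝ Φ q) u)
include hJ

lemma prh_etaL : prh (etaL Φ f (fun _ => 1) q) (etaL Φ f (fun _ => 1) q) =
    ((4 * (Complex.normSq (f q) * nJ (fpart (fderiv ℝ Φ q))) : ℝ) : ℂ) := by
  unfold etaL
  rw [prh_smul2, prh_pbB hJ detB_alt detB_alt, prh_detB, fg, mul_one, nJ]
  push_cast
  ring

lemma prh_muL : (prh (muL Φ f (fun _ => 1) ν q) (muL Φ f (fun _ => 1) ν q)).re =
    -(phiL ν (Φ q) * (prh (etaL Φ f (fun _ => 1) q) (etaL Φ f (fun _ => 1) q)).re) := by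
  rw [prh_etaL hJ, muL, prh_smul2, prh_pbB hJ (gamL_alt _ _ _) (gamL_alt _ _ _), phiL,
    Complex.ofReal_re, Complex.re_ofReal_mul, Complex.re_ofReal_mul, nJ]
  ring

lemma prh_beU : (prh (beU Φ f ν q) (beU Φ f ν q)).re =
    psiL ν (Φ q) * (prh (etaL Φ f (fun _ => 1) q) (etaL Φ f (fun _ => 1) q)).re := by
  rw [prh_etaL hJ, beU, prh_smul2, prh_pbB hJ (betL_alt _ _ _) (betL_alt _ _ _), psiL,
    Complex.ofReal_re, Complex.re_ofReal_mul, Complex.re_ofReal_mul, nJ]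
  ring

end loc2

/-- the bounds in all charts over a compact set -/
lemma exists_bound (hπ : FMap FZ FS π) (hh : TwForm FZ FS π h) (hν : IsLift FS ν) {K : Set ℂ}
    (hK : IsCompact K) (hKΩ : K ⊆ FS.Ω) : ∃ C, 0 ≤ C ∧ ∀ (v : PC Z → Cm 2 × ℂ → Cm 2),
      IsLift FZ v → ∀ e ∈ FZ.A, ∀ q ∈ e.target, q.2 ∈ K →
      -(prh (muG FS π h ν e q) (muG FS π h ν e q)).re ≤
        C * (prh (etaG FS π h e q) (etaG FS π h e q)).re ∧
      (prh (beG FS π h ν e q) (beG FS π h ν e q)).re ≤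
        C * (prh (etaG FS π h e q) (etaG FS π h e q)).re := by
  have hc := FS.proper K hK hKΩ
  obtain ⟨C1, hC1, h1⟩ := bound_cpt (FS := FS) hc (fun ε => phiL (ν ε))
    (fun ε hε q hq => contAt_phiL (hν.smooth ε hε q hq))
  obtain ⟨C2, hC2, h2⟩ := bound_cpt (FS := FS) hc (fun ε => psiL (ν ε))
    (fun ε hε q hq => contAt_psiL (hν.smooth ε hε q hq))
  refine ⟨max C1 C2, le_max_of_le_left hC1, fun v hv e he q hq hqK => ?_⟩
  have hz := e.map_target hq
  have hyK : π (e.symm q) ∈ FS.p ⁻¹' K := by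
    show FS.p (π (e.symm q)) ∈ K
    rw [hπ.p_eq, Fam.p_symm he hq]
    exact hqK
  have hnn : ∀ ε ∈ FS.A, π (e.symm q) ∈ ε.source →
      0 ≤ (prh (etaG FS π h e q) (etaG FS π h e q)).re := by
    intro ε hε hy
    have h3 := (etaG_ev hπ hh hv hν he hε hz hy).self_of_nhds
    have h4 := fun u => fpart_I hπ he hε hz hy u
    rw [e.right_inv hq] at h3 h4
    rw [h3, prh_etaL h4, Complex.ofReal_re]
    exact mul_nonneg (by norm_num) (mul_nonneg (Complex.normSq_nonneg _)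
      (Complex.normSq_nonneg _))
  constructor
  · obtain ⟨ε, hε, hy, h5⟩ := h1 _ hyK
    have h3 := (etaG_ev hπ hh hv hν he hε hz hy).self_of_nhds
    have h3' := (muG_ev hπ hh hv hν he hε hz hy).self_of_nhds
    have h4 := fun u => fpart_I hπ he hε hz hy u
    have h6 := hnn ε hε hy
    have h7 : PM π e ε (e (e.symm q)) = ε (π (e.symm q)) := PM_self hz
    rw [e.right_inv hq] at h3 h4 h3' h7
    rw [h3', prh_muL h4, ← h3, neg_neg, h7]
    exact mul_le_mul_of_nonneg_right (h5.trans (le_max_left _ _)) h6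
  · obtain ⟨ε, hε, hy, h5⟩ := h2 _ hyK
    have h3 := (etaG_ev hπ hh hv hν he hε hz hy).self_of_nhds
    have h3' := (beG_ev hπ hh hv hν he hε hz hy).self_of_nhds
    have h4 := fun u => fpart_I hπ he hε hz hy u
    have h6 := hnn ε hε hy
    have h7 : PM π e ε (e (e.symm q)) = ε (π (e.symm q)) := PM_self hz
    rw [e.right_inv hq] at h3 h4 h3' h7
    rw [h3', prh_beU h4, ← h3, h7]
    exact mul_le_mul_of_nonneg_right (h5.trans (le_max_right _ _)) h6

end pt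

end Vale.Agent.P298.H217.Bdd
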