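import Vale.Agent.P298.H217.Bdd5

/-!
# P298, block S1-GEO, row R5 (BDD): the bounds for `x` and `y`
-/

open scoped ContDiff Topology ComplexConjugate
open Vale.Agent.P272.K Vale.Agent.P298.H39 Filter

set_option maxSynthPendingDepth 3

noncomputable section

namespace Vale.Agent.P298.H217.Bdd

section forms
variable {Z : Type} [TopologicalSpace Z] [T2Space Z] {F : Fam Z}
  {v : PC Z → Cm 2 × ℂ → Cm 2} {α β γ : PC Z → Cm 2 × ℂ → BF} {t : ℂ}

/-- the pairing of two relative forms on the fibre over `t` -/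
def QF (F : Fam Z) (t : ℂ) (α β : PC Z → Cm 2 × ℂ → BF) : ℂ :=
  intF F t fun e q => prh (α e q) (β e q)

lemma QF_congr (hα : IsRF2 F α) (hβ : IsRF2 F β) {α' β' : PC Z → Cm 2 × ℂ → BF}
    (hα' : IsRF2 F α') (hβ' : IsRF2 F β') (h : EqA F α α') (h' : EqA F β β') :
    QF F t α β = QF F t α' β' :=
  intF_congr (isDen_prh hα hβ) (isDen_prh hα' hβ') fun e he q hq _ => by
    rw [h e he q hq, h' e he q hq]

lemma QF_add_left (hα : IsRF2 F α) (hβ : IsRF2 F β) (hγ : IsRF2 F γ) :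
    QF F t (α + β) γ = QF F t α γ + QF F t β γ := by
  rw [QF, QF, QF, ← intF_add t (isDen_prh hα hγ) (isDen_prh hβ hγ)]
  congr 1
  funext e q
  exact prh_add_left _ _ _

lemma QF_smul_left (c : ℂ) (hα : IsRF2 F α) (hγ : IsRF2 F γ) :
    QF F t (c • α) γ = c * QF F t α γ := by
  rw [QF, QF, ← intF_const_mul t c (isDen_prh hα hγ)]
  congr 1
  funext e q
  exact prh_smul_left _ _ _

lemma QF_conj (hα : IsRF2 F α) (hβ : IsRF2 F β) : QF F t α β = conj (QF F t β α) := by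
  unfold QF
  by_cases ht : t ∈ F.Ω
  · have := F.compact_fib ht
    rw [intF_def ht, intF_def ht]
    have key : ∀ (f : Chart 2 (F.Fib t)) (x : F.Fib t), At f x →
        res F t (fun e q => prh (α e q) (β e q)) f (f x) =
          conj (res F t (fun e q => prh (β e q) (α e q)) f (f x)) := by
      intro f x hx
      obtain ⟨e, he⟩ := mem_atlas_fib.mp hx.1
      rw [(isDen_prh hα hβ).res_apply he hx.2,
        (isDen_prh hβ hα).res_apply he hx.2, prh_conj]
    have h3 : INT.intX (n := 2) (X := F.Fib t)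
        (fun f w => (res F t (fun e q => prh (α e q) (β e q)) f w).re) =
        INT.intX (n := 2) (X := F.Fib t)
        (fun f w => (res F t (fun e q => prh (β e q) (α e q)) f w).re) :=
      INT.intX_congr fun f x hx => by rw [key f x hx, Complex.conj_re]
    have h4 : INT.intX (n := 2) (X := F.Fib t)
        (fun f w => (res F t (fun e q => prh (α e q) (β e q)) f w).im) =
        INT.intX (n := 2) (X := F.Fib t)
        (fun f w => (-1 : ℝ) * (res F t (fun e q => prh (β e q) (α e q)) f w).im) :=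
      INT.intX_congr fun f x hx => by rw [key f x hx, Complex.conj_im]; ring
    rw [h3, h4, INT.intX_const_mul]
    apply Complex.ext <;> simp
  · rw [intF, intF, dif_neg ht, dif_neg ht, map_zero]

lemma QF_add_right (hα : IsRF2 F α) (hβ : IsRF2 F β) (hγ : IsRF2 F γ) :
    QF F t γ (α + β) = QF F t γ α + QF F t γ β := by
  rw [QF_conj hγ (hα.add hβ), QF_add_left hα hβ hγ, map_add, ← QF_conj hγ hα, ← QF_conj hγ hβ]

/-- Stokes -/
lemma QF_exact {θ : PC Z → Cm 2 × ℂ → LF} (hθ : IsRF1 F θ) (hβ : IsRF2 F β) (hc : IsCl2 F β)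
    (ht : t ∈ F.Ω) : QF F t (fun e q => d1B (θ e) q) β = 0 :=
  stokes hθ (isRF2_cjB hβ) (isCl2_cjB hβ hc) ht

/-- the derivative of an exact form pairs to zero with closed forms -/
lemma QF_lie_exact {θ : PC Z → Cm 2 × ℂ → LF} (hθ : IsRF1 F θ) (hβ : IsRF2 F β)
    (hc : IsCl2 F β) (hv : IsLift F v) (ht : t ∈ F.Ω) (s : ℂ) :
    QF F t (lieF v s fun e q => d1B (θ e) q) β = 0 := by
  obtain ⟨L, hL, eL⟩ := pair_lieF hv (isRF2_d1B hθ) hβ ht
  have h1 : (fun t => intF F t fun e q => prh (d1B (θ e) q) (β e q)) =ᶠ[𝓝 t] fun _ => 0 := by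
    filter_upwards [F.isOpen.mem_nhds ht] with t' ht'
    exact QF_exact hθ hβ hc ht'
  have h2 : HasFDerivAt (fun t => intF F t fun e q => prh (d1B (θ e) q) (β e q))
      (0 : ℂ →L[ℝ] ℂ) t := (hasFDerivAt_const (0 : ℂ) t).congr_of_eventuallyEq h1
  have h3 : L = 0 := hL.unique h2
  have h4 := eL s
  have h5 := H369.r1Nat F v s β hv hβ
  have h6 : (intF F t fun e q => prh (d1B (θ e) q) (lieF v s β e q)) = 0 :=
    QF_exact hθ h5.1 (h5.2 hc) ht
  rw [h3, h6, add_zero] at h4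
  exact h4.symm

lemma QF_DF_exact {θ : PC Z → Cm 2 × ℂ → LF} (hθ : IsRF1 F θ) (hβ : IsRF2 F β)
    (hc : IsCl2 F β) (hv : IsLift F v) (ht : t ∈ F.Ω) :
    QF F t (DF v fun e q => d1B (θ e) q) β = 0 := by
  have h1 := (H369.r1Nat F v 1 _ hv (isRF2_d1B hθ)).1
  have h2 := (H369.r1Nat F v Complex.I _ hv (isRF2_d1B hθ)).1
  rw [DF, QF_smul_left _ (h1.add (h2.smul _)) hβ, QF_add_left h1 (h2.smul _) hβ,
    QF_smul_left _ h2 hβ, QF_lie_exact hθ hβ hc hv ht, QF_lie_exact hθ hβ hc hv ht]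
  ring

omit [T2Space Z] in
lemma isCl2_d1B {θ : PC Z → Cm 2 × ℂ → LF} (hθ : IsRF1 F θ) :
    IsCl2 F fun e q => d1B (θ e) q := by
  intro e he q hq u v x
  have h0 : ContDiffAt ℝ ∞ (θ e) q := hθ.smooth e he q hq
  have h1 : DifferentiableAt ℝ (fun q => d1B (θ e) q) q :=
    ((isRF2_d1B hθ).smooth e he q hq).differentiableAt (by simp)
  have h2 : DifferentiableAt ℝ (fderiv ℝ (θ e)) q :=
    (h0.fderiv_right (m := ∞) (by simp)).differentiableAt (by simp)
  have hs : ∀ a b : Cm 2 × ℂ, fderiv ℝ (fderiv ℝ (θ e)) q a b =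
      fderiv ℝ (fderiv ℝ (θ e)) q b a := fun a b => (h0.isSymmSndFDerivAt (by
    rw [minSmoothness_of_isRCLikeNormedField]; exact ENat.LEInfty.out)) a b
  have h3 : ∀ (a : Cm 2 × ℂ) (b c : Cm 2), fderiv ℝ (fun q => d1B (θ e) q) q a b c =
      fderiv ℝ (fderiv ℝ (θ e)) q a (b, 0) c - fderiv ℝ (fderiv ℝ (θ e)) q a (c, 0) b := by
    intro a b c
    rw [← fd2 h1]
    have h4 : ∀ b c : Cm 2, HasFDerivAt (fun q => fderiv ℝ (θ e) q (b, 0) c)
        ((ContinuousLinearMap.apply ℝ ℂ c).comp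
          ((ContinuousLinearMap.apply ℝ LF ((b, 0) : Cm 2 × ℂ)).comp
            (fderiv ℝ (fderiv ℝ (θ e)) q))) q := fun b c =>
      (ContinuousLinearMap.apply ℝ ℂ c).hasFDerivAt.comp q
        ((ContinuousLinearMap.apply ℝ LF ((b, 0) : Cm 2 × ℂ)).hasFDerivAt.comp q h2.hasFDerivAt)
    have h5 := (h4 b c).sub (h4 c b)
    have h6 : (fun p => d1B (θ e) p b c) = fun p => fderiv ℝ (θ e) p (b, 0) c -
        fderiv ℝ (θ e) p (c, 0) b := by
      funext p
      rw [d1B_apply, d1]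
    rw [h6]
    exact congrArg (fun L => L a) h5.fderiv
  rw [h3, h3, h3, hs (v, 0) (u, 0), hs (x, 0) (u, 0), hs (x, 0) (v, 0)]
  ring

end forms

section final

variable {Z S : Type} [TopologicalSpace Z] [T2Space Z] [TopologicalSpace S]
  {FZ : Fam Z} {FS : Fam S} {π : Z → S} {h : PC S → Z → ℂ}
  {v : PC Z → Cm 2 × ℂ → Cm 2} {ν : PC S → Cm 2 × ℂ → Cm 2} {σ : Z ≃ₜ Z} {χ : ℂ}

lemma ty20_add {α β : BF} (h : Ty20 α) (h' : Ty20 β) : Ty20 (α + β) := by
  intro u v
  simp only [_root_.add_apply, (h u v).1, (h u v).2, (h' u v).1, (h' u v).2]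
  constructor <;> ring

lemma ty20_smul {α : BF} (h : Ty20 α) (c : ℂ) : Ty20 (c • α) := by
  intro u v
  simp only [_root_.smul_apply, smul_eq_mul, (h u v).1, (h u v).2]
  constructor <;> ring

lemma ty02_add {α β : BF} (h : Ty02 α) (h' : Ty02 β) : Ty02 (α + β) := by
  intro u v
  simp only [_root_.add_apply, (h u v).1, (h u v).2, (h' u v).1, (h' u v).2]
  constructor <;> ring

lemma ty02_smul {α : BF} (h : Ty02 α) (c : ℂ) : Ty02 (c • α) := by
  intro u v
  simp only [_root_.smul_apply, smul_eq_mul, (h u v).1, (h u v).2]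
  constructor <;> ring

lemma ty20_zero : Ty20 (0 : BF) := by
  intro u v; simp

lemma ty02_zero : Ty02 (0 : BF) := by
  intro u v; simp

omit [T2Space Z] in
lemma sum_apply_Md {p : ℕ} (c : Fin p → ℂ) (w : Fin p → Md FZ σ χ) (e : PC Z) (q : Cm 2 × ℂ) :
    (∑ k, c k • w k : Md FZ σ χ).1 e q = ∑ k, c k • (w k).1 e q := by
  have h1 : (∑ k, c k • w k : Md FZ σ χ).1 = ∑ k, c k • (w k).1 := by
    rw [AddSubmonoidClass.coe_finsetSum]; rfl
  rw [h1, Finset.sum_apply, Finset.sum_apply]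
  rfl

lemma ty20_sum {p : ℕ} {α : Fin p → BF} (h : ∀ k, Ty20 (α k)) (c : Fin p → ℂ) :
    Ty20 (∑ k, c k • α k) := by
  induction (Finset.univ : Finset (Fin p)) using Finset.induction_on with
  | empty => rw [Finset.sum_empty]; exact ty20_zero
  | insert a s ha ih =>
    rw [Finset.sum_insert ha]
    exact ty20_add (ty20_smul (h a) _) ih

lemma ty02_sum {p : ℕ} {α : Fin p → BF} (h : ∀ k, Ty02 (α k)) (c : Fin p → ℂ) :
    Ty02 (∑ k, c k • α k) := by
  induction (Finset.univ : Finset (Fin p)) using Finset.induction_on with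
  | empty => rw [Finset.sum_empty]; exact ty02_zero
  | insert a s ha ih =>
    rw [Finset.sum_insert ha]
    exact ty02_add (ty02_smul (h a) _) ih

variable (hπ : FMap FZ FS π) (hh : TwForm FZ FS π h) (hv : IsLift FZ v) (hν : IsLift FS ν)
  (hσ : IsDeck FZ σ) (hvσ : LInv FZ σ v) {a : Md FZ σ χ} (ha : EqA FZ a.1 (etaG FS π h))
  {t : ℂ} (ht : t ∈ FZ.Ω) {C : ℝ}
include hπ hh hv hν ha ht

/-- the bound for the component orthogonal to the forms of type `(2,0)` -/
theorem bound_x {p : ℕ} (w : Fin p → Md FZ σ χ)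
    (hw : ∀ i, ∀ e ∈ FZ.A, ∀ q ∈ e.target, q.2 = t → Ty20 ((w i).1 e q))
    (hC : ∀ e ∈ FZ.A, ∀ q ∈ e.target, q.2 = t →
      -(prh (muG FS π h ν e q) (muG FS π h ν e q)).re ≤
        C * (prh (etaG FS π h e q) (etaG FS π h e q)).re) (c : Fin p → ℂ) :
    -(QM FZ σ χ t (DM hσ hv hvσ χ a - ∑ k, c k • w k)
      (DM hσ hv hvσ χ a - ∑ k, c k • w k)).re ≤ C * (QM FZ σ χ t a a).re := by
  obtain ⟨b, hb⟩ : ∃ b, b = DM hσ hv hvσ χ a - ∑ k, c k • w k := ⟨_, rfl⟩
  rw [← hb]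
  have hη := isRF2_etaG hπ hh hv hν
  have hθ := isRF1_thG hπ hh hv hν
  have hμ := isRF2_muG hπ hh hv hν
  have hdθ := isRF2_d1B hθ
  have hcθ := isCl2_d1B hθ
  obtain ⟨ga, hga⟩ : ∃ ga : PC Z → Cm 2 × ℂ → BF, ga = b.1 + (-1 : ℂ) •
    (fun e q => d1B (thG FS π h v ν e) q : PC Z → Cm 2 × ℂ → BF) := ⟨_, rfl⟩
  have hgR : IsRF2 FZ ga := by rw [hga]; exact (mRF b).add (hdθ.smul _)
  have hgC : IsCl2 FZ ga := by
    rw [hga]; exact IsCl2.add (mRF b) (hdθ.smul _) (mCl b) (IsCl2.smul _ hdθ hcθ)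
  have hbg : b.1 = ga + (fun e q => d1B (thG FS π h v ν e) q : PC Z → Cm 2 × ℂ → BF) := by
    rw [hga]
    funext e q
    show b.1 e q = b.1 e q + (-1 : ℂ) • d1B (thG FS π h v ν e) q + d1B (thG FS π h v ν e) q
    rw [neg_smul, one_smul]
    abel
  have e1 : QM FZ σ χ t b b = QF FZ t ga ga := by
    have h1 : QM FZ σ χ t b b = QF FZ t b.1 b.1 := rfl
    have h2 : QF FZ t b.1 b.1 = QF FZ t ga b.1 := by
      have h3 : QF FZ t b.1 b.1 = QF FZ t (ga + (fun e q => d1B (thG FS π h v ν e) q :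
        PC Z → Cm 2 × ℂ → BF)) b.1 := by rw [← hbg]
      rw [h3, QF_add_left hgR hdθ (mRF b), QF_exact hθ (mRF b) (mCl b) ht, add_zero]
    rw [h1, h2]
    conv_lhs => rw [hbg]
    rw [QF_add_right hgR hdθ hgR, QF_conj hgR hdθ, QF_exact hθ hgR hgC ht, map_zero, add_zero]
  have e2 : (QM FZ σ χ t a a).re = (QF FZ t (etaG FS π h) (etaG FS π h)).re := by
    have h1 : QM FZ σ χ t a a = QF FZ t a.1 a.1 := rfl
    rw [h1, QF_congr (mRF a) (mRF a) hη hη ha ha]
  have e3 : (((-C : ℝ) : ℂ) * QF FZ t (etaG FS π h) (etaG FS π h)).re ≤ (QF FZ t ga ga).re := by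
    rw [QF, QF, ← intF_const_mul t _ (isDen_prh hη hη)]
    refine intF_re_mono ((isDen_prh hη hη).const_mul _) (isDen_prh hgR hgR) ?_
    intro e he q hq hqt
    have h1 := hC e he q hq hqt
    have h20 : Ty20 (ga e q - muG FS π h ν e q) := by
      have h2 := first_glob hπ hh hv hν he hq
      have h3 : ga e q - muG FS π h ν e q =
          (DF v (etaG FS π h) e q - d1B (thG FS π h v ν e) q - muG FS π h ν e q) +
            (-1 : ℂ) • ∑ k, c k • (w k).1 e q := by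
        have h4 : b.1 e q = DF v (etaG FS π h) e q + (-1 : ℂ) • ∑ k, c k • (w k).1 e q := by
          have h5 : b.1 e q = (DM hσ hv hvσ χ a).1 e q -
              (∑ k, c k • w k : Md FZ σ χ).1 e q := by rw [hb]; rfl
          rw [h5, DM_apply' hσ hv hvσ a he hq, DF_congr ha e he q hq, sum_apply_Md, neg_smul,
            one_smul, sub_eq_add_neg]
        have h5 : ga e q = b.1 e q + (-1 : ℂ) • d1B (thG FS π h v ν e) q := by rw [hga]; rfl
        rw [h5, h4, neg_smul, neg_smul, one_smul, one_smul]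
        abel
      rw [h3]
      exact ty20_add h2 (ty20_smul (ty20_sum (fun k => hw k e he q hq hqt) c) _)
    have hal : ∀ u x, (ga e q - muG FS π h ν e q) u x = -(ga e q - muG FS π h ν e q) x u := by
      intro u x
      simp only [_root_.sub_apply]
      rw [hgR.alt e he q hq u x, hμ.alt e he q hq u x]
      ring
    have h5 := prh_split h20 (ty11_muG hπ hh hv hν he hq) hal
    rw [Complex.re_ofReal_mul]
    linarith
  rw [Complex.re_ofReal_mul] at e3
  rw [e1, e2]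
  linarith

/-- the bound for the component of type `(0,2)` of the second derivative -/
theorem bound_y {p : ℕ} (u : Fin p → Md FZ σ χ)
    (hu : ∀ i, ∀ e ∈ FZ.A, ∀ q ∈ e.target, q.2 = t → Ty02 ((u i).1 e q))
    (hC : ∀ e ∈ FZ.A, ∀ q ∈ e.target, q.2 = t →
      (prh (beG FS π h ν e q) (beG FS π h ν e q)).re ≤
        C * (prh (etaG FS π h e q) (etaG FS π h e q)).re) (c : Fin p → ℂ)
    (hc : ∀ j, QM FZ σ χ t (DM hσ hv hvσ χ (DM hσ hv hvσ χ a) - ∑ k, c k • u k) (u j) = 0) :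
    (QM FZ σ χ t (∑ k, c k • u k) (∑ k, c k • u k)).re ≤ C * (QM FZ σ χ t a a).re := by
  obtain ⟨b, hb⟩ : ∃ b, b = ∑ k, c k • u k := ⟨_, rfl⟩
  rw [← hb] at hc ⊢
  have hη := isRF2_etaG hπ hh hv hν
  have hθ := isRF1_thG hπ hh hv hν
  have hθ' := isRF1_thPG hπ hh hv hν
  have hβ := isRF2_beG hπ hh hv hν
  have hκ := isRF2_kaG hπ hh hv hν
  have hdθ := isRF2_d1B hθ
  have hdθ' := isRF2_d1B hθ'
  have e1 : QM FZ σ χ t b b = QM FZ σ χ t (DM hσ hv hvσ χ (DM hσ hv hvσ χ a)) b := by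
    have h1 : QM FZ σ χ t (DM hσ hv hvσ χ (DM hσ hv hvσ χ a) - b) b = 0 := by
      conv_lhs => rw [hb]
      rw [map_sum]
      refine Finset.sum_eq_zero fun k _ => ?_
      rw [LinearMap.map_smulₛₗ, ← hb, hc k, smul_zero]
    rw [map_sub, LinearMap.sub_apply] at h1
    exact (sub_eq_zero.mp h1).symm
  have hDe : EqA FZ (DM hσ hv hvσ χ a).1 (DF v (etaG FS π h)) := by
    intro e he q hq
    rw [DM_apply' hσ hv hvσ a he hq, DF_congr ha e he q hq]
  have hsplit : DF v (etaG FS π h) = kaG FS π h v ν +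
      (fun e q => d1B (thG FS π h v ν e) q : PC Z → Cm 2 × ℂ → BF) := by
    funext e q
    show _ = kaG FS π h v ν e q + d1B (thG FS π h v ν e) q
    rw [kaG_apply]
    abel
  have hDD : EqA FZ (DM hσ hv hvσ χ (DM hσ hv hvσ χ a)).1 (DF v (kaG FS π h v ν) +
      DF v (fun e q => d1B (thG FS π h v ν e) q : PC Z → Cm 2 × ℂ → BF)) := by
    intro e he q hq
    rw [DM_apply' hσ hv hvσ _ he hq, DF_congr hDe e he q hq, hsplit, DF_add hκ hdθ he hq]
    rfl
  have hDκ := isRF2_DF hv hκ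
  have hDθ := isRF2_DF hv hdθ
  have e2 : QM FZ σ χ t (DM hσ hv hvσ χ (DM hσ hv hvσ χ a)) b =
      QF FZ t (DF v (kaG FS π h v ν)) b.1 := by
    have h1 : QM FZ σ χ t (DM hσ hv hvσ χ (DM hσ hv hvσ χ a)) b =
      QF FZ t (DM hσ hv hvσ χ (DM hσ hv hvσ χ a)).1 b.1 := rfl
    rw [h1, QF_congr (mRF _) (mRF b) (hDκ.add hDθ) (mRF b) hDD (fun _ _ _ _ => rfl),
      QF_add_left hDκ hDθ (mRF b), QF_DF_exact hθ (mRF b) (mCl b) hv ht, add_zero]
  have hb02 : ∀ e ∈ FZ.A, ∀ q ∈ e.target, q.2 = t → Ty02 (b.1 e q) := by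
    intro e he q hq hqt
    rw [hb, sum_apply_Md]
    exact ty02_sum (fun k => hu k e he q hq hqt) c
  have e3 : QF FZ t (DF v (kaG FS π h v ν)) b.1 = QF FZ t (beG FS π h ν) b.1 := by
    have h1 : QF FZ t (DF v (kaG FS π h v ν)) b.1 =
        QF FZ t ((fun e q => d1B (thPG FS π h v ν e) q : PC Z → Cm 2 × ℂ → BF) +
          beG FS π h ν) b.1 := by
      refine intF_congr (isDen_prh hDκ (mRF b)) (isDen_prh (hdθ'.add hβ) (mRF b)) ?_
      intro e he q hq hqt
      have h2 := hb02 e he q hq hqt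
      have h3 := (mRF b).alt e he q hq
      rw [prh_ty02 h2 h3, prh_ty02 h2 h3, second_glob hπ hh hv hν he hq, ← c02_add]
      rfl
    rw [h1, QF_add_left hdθ' hβ (mRF b), QF_exact hθ' (mRF b) (mCl b) ht, zero_add]
  have e4 : 2 * (QF FZ t (beG FS π h ν) b.1).re ≤
      (QF FZ t (beG FS π h ν) (beG FS π h ν)).re + (QF FZ t b.1 b.1).re := by
    have h1 : (2 * QF FZ t (beG FS π h ν) b.1).re ≤
        (QF FZ t (beG FS π h ν) (beG FS π h ν) + QF FZ t b.1 b.1).re := by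
      rw [QF, QF, QF, ← intF_const_mul t _ (isDen_prh hβ (mRF b)),
        ← intF_add t (isDen_prh hβ hβ) (isDen_prh (mRF b) (mRF b))]
      refine intF_re_mono ((isDen_prh hβ (mRF b)).const_mul _)
        ((isDen_prh hβ hβ).add (isDen_prh (mRF b) (mRF b))) ?_
      intro e he q hq hqt
      have h2 := hb02 e he q hq hqt
      have h3 := ty02_beG hπ hh hv hν he hq
      have h4 : 0 ≤ (prh (beG FS π h ν e q + (-1 : ℂ) • b.1 e q)
          (beG FS π h ν e q + (-1 : ℂ) • b.1 e q)).re := by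
        refine prh_ty02_nonneg (ty02_add h3 (ty02_smul h2 _)) ?_
        intro u x
        simp only [_root_.add_apply, _root_.smul_apply]
        rw [hβ.alt e he q hq u x, (mRF b).alt e he q hq u x, smul_neg]
        ring
      rw [prh_add_left, prh_add_right, prh_add_right, prh_smul_left, prh_smul_left,
        prh_smul_right, prh_smul_right, prh_conj (b.1 e q) (beG FS π h ν e q)] at h4
      simp only [Complex.add_re, Complex.mul_re, map_neg, map_one, Complex.neg_re,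
        Complex.one_re, Complex.neg_im, Complex.one_im, neg_zero, zero_mul, sub_zero,
        Complex.conj_re, Complex.re_ofNat, Complex.im_ofNat] at h4 ⊢
      linarith
    rw [Complex.add_re] at h1
    simpa using h1
  have e5 : (QM FZ σ χ t a a).re = (QF FZ t (etaG FS π h) (etaG FS π h)).re := by
    have h1 : QM FZ σ χ t a a = QF FZ t a.1 a.1 := rfl
    rw [h1, QF_congr (mRF a) (mRF a) hη hη ha ha]
  have e6 : (QF FZ t (beG FS π h ν) (beG FS π h ν)).re ≤
      (((C : ℝ) : ℂ) * QF FZ t (etaG FS π h) (etaG FS π h)).re := by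
    rw [QF, QF, ← intF_const_mul t _ (isDen_prh hη hη)]
    refine intF_re_mono (isDen_prh hβ hβ) ((isDen_prh hη hη).const_mul _) ?_
    intro e he q hq hqt
    rw [Complex.re_ofReal_mul]
    exact hC e he q hq hqt
  rw [Complex.re_ofReal_mul] at e6
  have e7 : (QM FZ σ χ t b b).re = (QF FZ t (beG FS π h ν) b.1).re := by
    rw [e1, e2, e3]
  have e8 : QM FZ σ χ t b b = QF FZ t b.1 b.1 := rfl
  rw [← e8, ← e7] at e4
  rw [e5]
  linarith

end final

/-- ROW R5: `x` and `y` are bounded by a multiple of the square norm, uniformly over compact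
sets of parameters over which the family below has smooth lifts. -/
theorem bdd {Z S : Type} [TopologicalSpace Z] [T2Space Z] [TopologicalSpace S]
    {FZ : Fam Z} {FS : Fam S} {π : Z → S} {h : PC S → Z → ℂ} {ν : PC S → Cm 2 × ℂ → Cm 2}
    (hπ : FMap FZ FS π) (hh : TwForm FZ FS π h) (hν : IsLift FS ν) {K : Set ℂ}
    (hK : IsCompact K) (hKΩ : K ⊆ FS.Ω) : ∃ C, 0 ≤ C ∧
      ∀ (v : PC Z → Cm 2 × ℂ → Cm 2) (hv : IsLift FZ v) (σ : Z ≃ₜ Z) (hσ : IsDeck FZ σ)
        (hvσ : LInv FZ σ v) (χ : ℂ) (a : Md FZ σ χ), EqA FZ a.1 (etaG FS π h) →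
      ∀ t ∈ FZ.Ω, t ∈ K → ∀ (p : ℕ) (w : Fin p → Md FZ σ χ) (r : ℝ),
        ((∀ i, ∀ e ∈ FZ.A, ∀ q ∈ e.target, q.2 = t → Ty20 ((w i).1 e q)) →
          H265.IsX (QM FZ σ χ) (DM hσ hv hvσ χ) w a t r → r ≤ C * (QM FZ σ χ t a a).re) ∧
        ((∀ i, ∀ e ∈ FZ.A, ∀ q ∈ e.target, q.2 = t → Ty02 ((w i).1 e q)) →
          H265.IsY (QM FZ σ χ) (DM hσ hv hvσ χ) w a t r → r ≤ C * (QM FZ σ χ t a a).re) := by
  obtain ⟨C, hC, hb⟩ := exists_bound hπ hh hν hK hKΩ
  refine ⟨C, hC, fun v hv σ hσ hvσ χ a ha t ht htK p w r => ⟨fun hw hr => ?_, fun hw hr => ?_⟩⟩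
  · obtain ⟨c, -, rfl⟩ := hr
    exact bound_x hπ hh hv hν hσ hvσ ha ht w hw
      (fun e he q hq hqt => (hb v hv e he q hq (hqt ▸ htK)).1) c
  · obtain ⟨c, hc, rfl⟩ := hr
    exact bound_y hπ hh hv hν hσ hvσ ha ht w hw
      (fun e he q hq hqt => (hb v hv e he q hq (hqt ▸ htK)).2) c hc

end Vale.Agent.P298.H217.Bdd
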