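import Vale.Agent.P298.H217.Bdd6
import Vale.Agent.P298.H39.Asm3
import Vale.Agent.P298.H863.C11
import Vale.Agent.P298.H265.Lift

/-!
# P298, block S1-GEO, row R5 (BDD) for the cyclic cover `y ^ M = H_t` of the surface `G_t = 0`
-/

open scoped ContDiff Topology ComplexConjugate
open Vale.Agent.P272.K Vale.Agent.P298.H39 Vale.Agent.P298.H863 Filter

set_option maxSynthPendingDepth 3

noncomputable section

namespace Vale.Agent.P298.H217.Bdd

variable {D Ω : Set ℂ} {d M : ℕ} {G H : ℂ × VN (1 + 3) → ℂ}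

lemma fmap_prZ (h : Dat D d M G H) (hΩD : Ω ⊆ D) (hZ : CIF Ω (gZ G H M) ![d, M]) :
    FMap (fam hZ rfl) (fam (cifS h) rfl) (prZ h hΩD hZ) where
  cont := (prZ_ind h hΩD hZ).continuous hZ rfl
  p_eq z := (prZ_ind h hΩD hZ).t z
  hol _ he _ hε _ hz hz' := (prZ_ind h hΩD hZ).hol he hε hz hz'

lemma tw_hsec (hd : 5 ≤ d) (h : Dat D d M G H) (hΩD : Ω ⊆ D) (hZ : CIF Ω (gZ G H M) ![d, M]) :
    TwForm (fam hZ rfl) (fam (cifS h) rfl) (prZ h hΩD hZ) (hsec h hΩD hZ) where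
  hol _ he _ hε _ hz hz' := (hsec_hol hd hε he hz hz').contDiffAt
  change _ hε _ hε' _ hz hz' u x := hsec_change hd hε hε' hz hz' u x

/-- the form given by the coefficients of `Peta` is the twisted pull back of the section -/
lemma etaG_eq (hd : 5 ≤ d) (h : Dat D d M G H) (hΩD : Ω ⊆ D) (hZ : CIF Ω (gZ G H M) ![d, M])
    {e : PC (TZ Ω (gZ G H M))} (he : e ∈ (fam hZ rfl).A) {q : Cm 2 × ℂ} (hq : q ∈ e.target)
    (u x : Cm 2) :
    etaG (fam (cifS h) rfl) (prZ h hΩD hZ) (hsec h hΩD hZ) e q u x =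
      cf (Peta H d M) e q * (u 0 * x 1 - u 1 * x 0) := by
  have hz := e.map_target hq
  have hε := cS_mem (fam (cifS h) rfl) (prZ h hΩD hZ (e.symm q))
  have hy := cS_src (fam (cifS h) rfl) (prZ h hΩD hZ (e.symm q))
  have h1 := eta_eq (h := h) (hΩD := hΩD) (hZ := hZ) hd hε he hz hy u x
  rw [e.right_inv hq] at h1
  rw [← fm_apply, h1]
  unfold etaG
  rw [etaL_apply]
  unfold fg
  rw [mul_one]
  rfl

/-- R5 for the cyclic cover -/
theorem bddZ (hd : 5 ≤ d) (h : Dat D d M G H) (hΩD : Ω ⊆ D) (hZ : CIF Ω (gZ G H M) ![d, M])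
    {K : Set ℂ} (hK : IsCompact K) (hKD : K ⊆ D) : ∃ C : ℝ, 0 ≤ C ∧
      ∀ (v : PC (TZ Ω (gZ G H M)) → Cm 2 × ℂ → Cm 2) (hv : IsLift (fam hZ rfl) v)
        (σ : TZ Ω (gZ G H M) ≃ₜ TZ Ω (gZ G H M)) (hσ : H39.IsDeck (fam hZ rfl) σ)
        (hvσ : LInv (fam hZ rfl) σ v) (χ : ℂ) (hη : HCf (fam hZ rfl) (cf (Peta H d M)))
        (hηc : HCh (fam hZ rfl) σ χ (cf (Peta H d M))) (t : ℂ), t ∈ Ω → t ∈ K →
        (∀ (p : ℕ) (w : Fin p → PC (TZ Ω (gZ G H M)) → Cm 2 × ℂ → ℂ)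
          (hw : ∀ i, HCf (fam hZ rfl) (w i)) (hwc : ∀ i, HCh (fam hZ rfl) σ χ (w i)) (x : ℝ),
          H265.IsX (QM (fam hZ rfl) σ χ) (DM hσ hv hvσ χ) (fun i => mF hσ (hw i) (hwc i))
            (mF hσ hη hηc) t x →
          x ≤ C * (QM (fam hZ rfl) σ χ t (mF hσ hη hηc) (mF hσ hη hηc)).re) ∧
        (∀ (r : ℕ) (u : Fin r → PC (TZ Ω (gZ G H M)) → Cm 2 × ℂ → ℂ)
          (hu : ∀ j, HCf (fam hZ rfl) (u j)) (huc : ∀ j, HCh (fam hZ rfl) σ (conj χ) (u j))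
          (y : ℝ),
          H265.IsY (QM (fam hZ rfl) σ χ) (DM hσ hv hvσ χ) (fun j => mG hσ (hu j) (huc j))
            (mF hσ hη hηc) t y →
          y ≤ C * (QM (fam hZ rfl) σ χ t (mF hσ hη hηc) (mF hσ hη hηc)).re) := by
  obtain ⟨ν, hν⟩ := H265.exists_lift (fam (cifS h) rfl)
  obtain ⟨C, hC, hb⟩ := bdd (fmap_prZ h hΩD hZ) (tw_hsec hd h hΩD hZ) hν hK hKD
  refine ⟨C, hC, fun v hv σ hσ hvσ χ hη hηc t ht htK => ?_⟩
  have ha : EqA (fam hZ rfl) (mF hσ hη hηc).1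
      (etaG (fam (cifS h) rfl) (prZ h hΩD hZ) (hsec h hΩD hZ)) := by
    intro e he q hq
    rw [mF_apply he hq]
    ext u x
    rw [etaG_eq hd h hΩD hZ he hq]
    show cf (Peta H d M) e q * H723.dzz u x = _
    rw [H723.dzz_apply]
  have hb' := hb v hv σ hσ hvσ χ (mF hσ hη hηc) ha t ht htK
  refine ⟨fun p w hw hwc x hx => (hb' p _ x).1 (fun i e he q hq _ => ?_) hx,
    fun r u hu huc y hy => (hb' r _ y).2 (fun i e he q hq _ => ?_) hy⟩
  · rw [mF_apply he hq]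
    intro a b
    show w i e q * H723.dzz (Complex.I • a) b = Complex.I * (w i e q * H723.dzz a b) ∧
      w i e q * H723.dzz a (Complex.I • b) = Complex.I * (w i e q * H723.dzz a b)
    rw [dzz_smul_left, dzz_smul_right]
    constructor <;> ring
  · rw [mG_apply he hq]
    intro a b
    show conj (u i e q * H723.dzz (Complex.I • a) b) =
        -Complex.I * conj (u i e q * H723.dzz a b) ∧
      conj (u i e q * H723.dzz a (Complex.I • b)) = -Complex.I * conj (u i e q * H723.dzz a b)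
    rw [dzz_smul_left, dzz_smul_right]
    simp only [map_mul, Complex.conj_I]
    constructor <;> ring

end Vale.Agent.P298.H217.Bdd
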